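import Mathlib
import Vale.Agent.P156.Defs
import Vale.Agent.P156.R2.Defs

/-! Block Schur formula: from the resolvent of the cut graph on the leads to the resolvent on the
full stars. -/

open MeasureTheory Filter Topology Matrix Finset

namespace Vale.Agent.P156

noncomputable section

namespace H520

variable {V κ : Type*} [Fintype V] [DecidableEq V] [Fintype κ] [DecidableEq κ]

/-- Block Schur formula, abstract form. -/
theorem inv_of_cut (M MD : Matrix V V ℂ) (P C : Matrix V κ ℂ) (z : ℂ)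
    (hMD : IsUnit MD.det) (hW : IsUnit (-(z • (1 : Matrix κ κ ℂ)) - Cᵀ * MD⁻¹ * C).det)
    (hPP : Pᵀ * P = 1) (hCP : Cᵀ * P = 0) (hMP : MD * P = P) (hsym : MDᵀ = MD)
    (hM : M = MD + P * Cᵀ + C * Pᵀ - (1 + z) • (P * Pᵀ)) :
    M⁻¹ = MD⁻¹ - P * Pᵀ + (P - MD⁻¹ * C) * (-(z • (1 : Matrix κ κ ℂ)) - Cᵀ * MD⁻¹ * C)⁻¹ *
      (P - MD⁻¹ * C)ᵀ := by
  set R := MD⁻¹ with hR
  set W := -(z • (1 : Matrix κ κ ℂ)) - Cᵀ * R * C with hWdef
  have hMR : MD * R = 1 := Matrix.mul_nonsing_inv _ hMD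
  have hRM : R * MD = 1 := Matrix.nonsing_inv_mul _ hMD
  have hRsym : Rᵀ = R := by
    rw [hR, Matrix.transpose_nonsing_inv, hsym]
  have hRP : R * P = P := by
    calc R * P = R * (MD * P) := by rw [hMP]
      _ = P := by rw [← Matrix.mul_assoc, hRM, Matrix.one_mul]
  have hPR : Pᵀ * R = Pᵀ := by
    have := congrArg Matrix.transpose hRP
    rwa [Matrix.transpose_mul, hRsym] at this
  have hPC : Pᵀ * C = 0 := by
    have := congrArg Matrix.transpose hCP
    rwa [Matrix.transpose_mul, Matrix.transpose_transpose, Matrix.transpose_zero] at this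
  have hWW : W * W⁻¹ = 1 := Matrix.mul_nonsing_inv _ hW
  apply Matrix.inv_eq_right_inv
  -- M * P
  have h1 : M * P = C - z • P := by
    rw [hM, Matrix.sub_mul, Matrix.add_mul, Matrix.add_mul, hMP, Matrix.mul_assoc P, hCP,
      Matrix.mul_assoc C, hPP, Matrix.smul_mul, Matrix.mul_assoc P, hPP]
    simp only [Matrix.mul_zero, Matrix.mul_one, add_smul, one_smul]
    abel
  have h2 : M * R = 1 + P * Cᵀ * R + C * Pᵀ - (1 + z) • (P * Pᵀ) := by
    rw [hM, Matrix.sub_mul, Matrix.add_mul, Matrix.add_mul, hMR, Matrix.smul_mul,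
      Matrix.mul_assoc C, hPR, Matrix.mul_assoc P Pᵀ R, hPR]
  have h3 : M * (R - P * Pᵀ) = 1 + P * Cᵀ * R - P * Pᵀ := by
    rw [Matrix.mul_sub, ← Matrix.mul_assoc, h1, h2, Matrix.sub_mul, Matrix.smul_mul]
    simp only [add_smul, one_smul]
    abel
  have h4 : M * (R * C) = C + P * (Cᵀ * R * C) := by
    rw [← Matrix.mul_assoc, h2]
    simp only [Matrix.sub_mul, Matrix.add_mul, Matrix.one_mul, Matrix.smul_mul, Matrix.mul_assoc,
      hPC, Matrix.mul_zero, smul_zero, add_zero, sub_zero]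
  have h5 : M * (P - R * C) = P * W := by
    rw [Matrix.mul_sub, h1, h4, hWdef, Matrix.mul_sub]
    simp only [Matrix.mul_neg, Matrix.mul_smul, Matrix.mul_one]
    abel
  rw [Matrix.mul_add, h3, ← Matrix.mul_assoc, ← Matrix.mul_assoc, h5, Matrix.mul_assoc P W, hWW,
    Matrix.mul_one, Matrix.transpose_sub, Matrix.mul_sub, Matrix.transpose_mul, hRsym,
    ← Matrix.mul_assoc]
  abel

/-- Incidence matrix of the leads with the centres. -/
def BB (d K : ℕ) : Matrix (Fin K × Fin d) (Fin K) ℂ := fun p j => if p.1 = j then 1 else 0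

/-- The matrix whose inverse is the resolvent on the centres. -/
def WWm {d K : ℕ} (R : Matrix (Fin K × Fin d) (Fin K × Fin d) ℂ) (z : ℂ) :
    Matrix (Fin K) (Fin K) ℂ :=
  -(z • (1 : Matrix (Fin K) (Fin K) ℂ)) - (BB d K)ᵀ * R * BB d K

/-- The projection of `P - R C` on the pattern. -/
def TT {d K : ℕ} (R : Matrix (Fin K × Fin d) (Fin K × Fin d) ℂ) :
    Matrix (Fin K × Option (Fin d)) (Fin K) ℂ :=
  fun a j => a.2.elim (if a.1 = j then 1 else 0) (fun k => -(R * BB d K) (a.1, k) j)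

/-- The lead part of the pattern resolvent. -/
def LLm {d K : ℕ} (R : Matrix (Fin K × Fin d) (Fin K × Fin d) ℂ) :
    Matrix (Fin K × Option (Fin d)) (Fin K × Option (Fin d)) ℂ :=
  fun a b => a.2.elim 0 (fun k => b.2.elim 0 (fun k' => R (a.1, k) (b.1, k')))

/-- The resolvent on the full stars as a function of the lead matrix. -/
def QofR {d K : ℕ} (R : Matrix (Fin K × Fin d) (Fin K × Fin d) ℂ) (z : ℂ) :
    Matrix (Fin K × Option (Fin d)) (Fin K × Option (Fin d)) ℂ :=
  LLm R + TT R * (WWm R z)⁻¹ * (TT R)ᵀ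

end H520

end

end Vale.Agent.P156
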