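import Mathlib
import Vale.Agent.P156.Defs
import Vale.Agent.P156.R2.Defs
import Vale.Agent.P156.H520.Schur

/-! The resolvent on the full stars is `QofR` of the lead matrix. -/

open MeasureTheory Filter Topology Matrix Finset

namespace Vale.Agent.P156

noncomputable section

namespace H520

open Classical in
theorem adj_apply {n : ℕ} (G : SimpleGraph (Fin n)) (v w : Fin n) :
    adj G v w = if G.Adj v w then 1 else 0 := by
  unfold adj
  rw [SimpleGraph.adjMatrix_apply]

theorem adj_symm {n : ℕ} (G : SimpleGraph (Fin n)) (v w : Fin n) : adj G v w = adj G w v := by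
  classical
  rw [adj_apply, adj_apply]
  simp only [G.adj_comm]

/-- Summation over the neighbours. -/
theorem sum_adj_star {n d : ℕ} {G : SimpleGraph (Fin n)} {v : Fin n} {l : Fin d → Fin n}
    (h : IsStar G v l) (f : Fin n → ℂ) :
    ∑ w, (adj G w v : ℂ) * f w = ∑ k, f (l k) := by
  classical
  have h1 : ∀ w, (adj G w v : ℂ) * f w = if ∃ k, l k = w then f w else 0 := by
    intro w
    rw [adj_symm, adj_apply]
    by_cases hw : G.Adj v w
    · rw [if_pos hw, if_pos ((h.2 w).1 hw)]
      push_cast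
      ring
    · rw [if_neg hw, if_neg (fun hh => hw ((h.2 w).2 hh))]
      push_cast
      ring
  rw [Finset.sum_congr rfl (fun w _ => h1 w), ← Finset.sum_filter]
  have h2 : (Finset.univ.filter (fun w => ∃ k, l k = w)) = Finset.univ.image l := by
    ext w
    simp
  rw [h2, Finset.sum_image (fun a _ b _ hab => h.1 hab)]

section

variable {n d K : ℕ} {ω : SimpleGraph (Fin n) × StarPos n d K}

theorem ZZs_star (hω : ω ∈ ZZs n d K) (j : Fin K) : IsStar ω.1 (ω.2.1 j) (ω.2.2 j) := by
  classical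
  unfold ZZs WW at hω
  simp only [Finset.mem_filter, Finset.mem_univ, true_and] at hω
  exact hω.1.2 j

theorem ZZs_injv (hω : ω ∈ ZZs n d K) : Function.Injective ω.2.1 := by
  classical
  unfold ZZs at hω
  simp only [Finset.mem_filter] at hω
  exact hω.2.1

theorem ZZs_injl (hω : ω ∈ ZZs n d K) :
    Function.Injective (fun p : Fin K × Fin d => ω.2.2 p.1 p.2) := by
  classical
  unfold ZZs at hω
  simp only [Finset.mem_filter] at hω
  exact hω.2.2.1

theorem ZZs_ne (hω : ω ∈ ZZs n d K) (j : Fin K) (k : Fin d) (i : Fin K) :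
    ω.2.2 j k ≠ ω.2.1 i := by
  classical
  unfold ZZs at hω
  simp only [Finset.mem_filter] at hω
  exact hω.2.2.2 j k i

/-- Centre incidence. -/
def PP (ω : SimpleGraph (Fin n) × StarPos n d K) : Matrix (Fin n) (Fin K) ℂ :=
  fun v j => if v = ω.2.1 j then 1 else 0

/-- Columns of the adjacency matrix at the centres. -/
def CC (ω : SimpleGraph (Fin n) × StarPos n d K) : Matrix (Fin n) (Fin K) ℂ :=
  fun v j => (adj ω.1 v (ω.2.1 j) : ℂ)

theorem mem_centres (v : Fin n) : v ∈ centres ω ↔ ∃ j, ω.2.1 j = v := by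
  classical
  unfold centres
  simp

theorem adj_centres (hω : ω ∈ ZZs n d K) (i j : Fin K) : adj ω.1 (ω.2.1 i) (ω.2.1 j) = 0 := by
  classical
  rw [adj_apply, if_neg]
  intro h
  obtain ⟨k, hk⟩ := ((ZZs_star hω i).2 _).1 h
  exact ZZs_ne hω i k j hk

theorem PP_PP (hω : ω ∈ ZZs n d K) : (PP ω)ᵀ * PP ω = 1 := by
  ext i j
  rw [Matrix.mul_apply]
  simp only [Matrix.transpose_apply, PP, ite_mul, one_mul, zero_mul, Finset.sum_ite_eq',
    Finset.mem_univ, if_true]
  rw [Matrix.one_apply]
  by_cases hij : i = j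
  · rw [if_pos (by rw [hij]), if_pos hij]
  · rw [if_neg (fun h => hij (ZZs_injv hω h)), if_neg hij]

theorem CC_PP (hω : ω ∈ ZZs n d K) : (CC ω)ᵀ * PP ω = 0 := by
  ext i j
  rw [Matrix.mul_apply]
  simp only [Matrix.transpose_apply, PP, CC, mul_ite, mul_one, mul_zero, Finset.sum_ite_eq',
    Finset.mem_univ, if_true]
  rw [adj_centres hω]
  simp

theorem cut_PP (z : ℂ) : cutMat (adj ω.1) (centres ω) z * PP ω = PP ω := by
  ext v j
  rw [Matrix.mul_apply]
  simp only [PP, mul_ite, mul_one, mul_zero, Finset.sum_ite_eq', Finset.mem_univ, if_true]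
  unfold cutMat
  rw [if_pos (Or.inr ((mem_centres _).2 ⟨j, rfl⟩))]

theorem cut_symm (G : SimpleGraph (Fin n)) (D : Finset (Fin n)) (z : ℂ) :
    (cutMat (adj G) D z)ᵀ = cutMat (adj G) D z := by
  ext v w
  rw [Matrix.transpose_apply]
  unfold cutMat
  rw [adj_symm G w v]
  simp only [Or.comm (a := w ∈ D), eq_comm (a := w)]

theorem res_symm (G : SimpleGraph (Fin n)) (D : Finset (Fin n)) (z : ℂ) :
    (resD (adj G) D z)ᵀ = resD (adj G) D z := by
  unfold resD
  rw [Matrix.transpose_nonsing_inv, cut_symm]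

theorem cut_decomp (hω : ω ∈ ZZs n d K) (z : ℂ) :
    cutMat (adj ω.1) ∅ z = cutMat (adj ω.1) (centres ω) z + PP ω * (CC ω)ᵀ + CC ω * (PP ω)ᵀ -
      (1 + z) • (PP ω * (PP ω)ᵀ) := by
  ext v w
  simp only [Matrix.sub_apply, Matrix.add_apply, Matrix.smul_apply, Matrix.mul_apply,
    Matrix.transpose_apply, smul_eq_mul]
  have hinj := ZZs_injv hω
  by_cases hv : ∃ i, ω.2.1 i = v
  · obtain ⟨i, rfl⟩ := hv
    have e1 : ∀ f : Fin K → ℂ, ∑ j, PP ω (ω.2.1 i) j * f j = f i := by
      intro f
      unfold PP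
      rw [Finset.sum_eq_single i]
      · rw [if_pos rfl, one_mul]
      · intro j _ hj
        rw [if_neg (fun h => hj (hinj h).symm), zero_mul]
      · intro h
        exact absurd (Finset.mem_univ _) h
    rw [e1, e1]
    by_cases hw : ∃ j, ω.2.1 j = w
    · obtain ⟨j, rfl⟩ := hw
      have e2 : ∑ x, CC ω (ω.2.1 i) x * PP ω (ω.2.1 j) x = 0 := by
        apply Finset.sum_eq_zero
        intro x _
        unfold CC
        rw [adj_centres hω]
        simp
      rw [e2]
      unfold cutMat CC PP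
      rw [adj_centres hω, if_neg (by simp), if_pos (Or.inl ((mem_centres _).2 ⟨i, rfl⟩)),
        adj_centres hω]
      by_cases hij : i = j
      · rw [hij]
        simp
      · rw [if_neg (fun h => hij (hinj h)), if_neg (fun h => hij (hinj h)),
          if_neg (fun h => hij (hinj h).symm)]
        simp
    · have e2 : ∑ x, CC ω (ω.2.1 i) x * PP ω w x = 0 := by
        apply Finset.sum_eq_zero
        intro x _
        unfold PP
        rw [if_neg (fun h => hw ⟨x, h.symm⟩), mul_zero]
      rw [e2]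
      have e3 : PP ω w i = 0 := by
        unfold PP
        rw [if_neg (fun h => hw ⟨i, h.symm⟩)]
      rw [e3]
      unfold cutMat CC
      rw [if_neg (by simp), if_pos (Or.inl ((mem_centres _).2 ⟨i, rfl⟩)), adj_symm ω.1 w,
        if_neg (fun h => hw ⟨i, h⟩), if_neg (fun h => hw ⟨i, h⟩)]
      simp
  · have e1 : ∀ f : Fin K → ℂ, ∑ j, PP ω v j * f j = 0 := by
      intro f
      apply Finset.sum_eq_zero
      intro x _
      unfold PP
      rw [if_neg (fun h => hv ⟨x, h.symm⟩), zero_mul]
    rw [e1, e1]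
    by_cases hw : ∃ j, ω.2.1 j = w
    · obtain ⟨j, rfl⟩ := hw
      have e2 : ∑ x, CC ω v x * PP ω (ω.2.1 j) x = CC ω v j := by
        unfold PP
        rw [Finset.sum_eq_single j]
        · rw [if_pos rfl, mul_one]
        · intro i _ hi
          rw [if_neg (fun h => hi (hinj h).symm), mul_zero]
        · intro h
          exact absurd (Finset.mem_univ _) h
      rw [e2]
      unfold cutMat CC
      rw [if_neg (by simp), if_pos (Or.inr ((mem_centres _).2 ⟨j, rfl⟩)),
        if_neg (fun h => hv ⟨j, h.symm⟩), if_neg (fun h => hv ⟨j, h.symm⟩)]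
      simp
    · have e2 : ∑ x, CC ω v x * PP ω w x = 0 := by
        apply Finset.sum_eq_zero
        intro x _
        unfold PP
        rw [if_neg (fun h => hw ⟨x, h.symm⟩), mul_zero]
      rw [e2]
      unfold cutMat
      have c1 : ¬ (v ∈ (∅ : Finset (Fin n)) ∨ w ∈ (∅ : Finset (Fin n))) := by simp
      have c2 : ¬ (v ∈ centres ω ∨ w ∈ centres ω) := by
        rw [mem_centres, mem_centres]
        tauto
      rw [if_neg c1, if_neg c2]
      simp

theorem res_centre (z : ℂ) (hcut : IsUnit (cutMat (adj ω.1) (centres ω) z).det) (v : Fin n)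
    (i : Fin K) : resD (adj ω.1) (centres ω) z v (ω.2.1 i) = if v = ω.2.1 i then 1 else 0 := by
  have h1 : resD (adj ω.1) (centres ω) z * PP ω = PP ω := by
    unfold resD
    calc (cutMat (adj ω.1) (centres ω) z)⁻¹ * PP ω
        = (cutMat (adj ω.1) (centres ω) z)⁻¹ * (cutMat (adj ω.1) (centres ω) z * PP ω) := by
          rw [cut_PP]
      _ = PP ω := by
          rw [← Matrix.mul_assoc, Matrix.nonsing_inv_mul _ hcut, Matrix.one_mul]
  have h2 := congrFun (congrFun h1 v) i
  rw [Matrix.mul_apply] at h2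
  simp only [PP, mul_ite, mul_one, mul_zero, Finset.sum_ite_eq', Finset.mem_univ, if_true] at h2
  exact h2

/-- `R C` at the leads. -/
theorem RC_lead (hω : ω ∈ ZZs n d K) (z : ℂ) (p : Fin K × Fin d) (j : Fin K) :
    (resD (adj ω.1) (centres ω) z * CC ω) (lead ω p) j = (leadMat ω z * BB d K) p j := by
  rw [Matrix.mul_apply, Matrix.mul_apply]
  unfold CC
  rw [Finset.sum_congr rfl (fun v _ => mul_comm _ _), sum_adj_star (ZZs_star hω j)]
  unfold BB
  simp only [mul_ite, mul_one, mul_zero]
  rw [Fintype.sum_prod_type, Finset.sum_eq_single j]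
  · apply Finset.sum_congr rfl
    intro k _
    show _ = if (j = j) then leadMat ω z p (j, k) else 0
    rw [if_pos rfl]
    rfl
  · intro i _ hi
    apply Finset.sum_eq_zero
    intro k _
    rw [if_neg hi]
  · intro h
    exact absurd (Finset.mem_univ _) h

/-- `R C` at the centres. -/
theorem RC_centre (hω : ω ∈ ZZs n d K) (z : ℂ)
    (hcut : IsUnit (cutMat (adj ω.1) (centres ω) z).det) (i j : Fin K) :
    (resD (adj ω.1) (centres ω) z * CC ω) (ω.2.1 i) j = 0 := by
  rw [Matrix.mul_apply]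
  apply Finset.sum_eq_zero
  intro v _
  have h1 : resD (adj ω.1) (centres ω) z (ω.2.1 i) v = if v = ω.2.1 i then 1 else 0 := by
    rw [← res_centre z hcut v i]
    have := congrFun (congrFun (res_symm ω.1 (centres ω) z) (ω.2.1 i)) v
    rw [Matrix.transpose_apply] at this
    exact this.symm
  rw [h1]
  split_ifs with h
  · rw [h]
    unfold CC
    rw [adj_centres hω]
    simp
  · rw [zero_mul]

theorem CRC (hω : ω ∈ ZZs n d K) (z : ℂ) :
    (CC ω)ᵀ * resD (adj ω.1) (centres ω) z * CC ω = (BB d K)ᵀ * leadMat ω z * BB d K := by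
  rw [Matrix.mul_assoc, Matrix.mul_assoc]
  ext i j
  rw [Matrix.mul_apply, Matrix.mul_apply]
  simp only [Matrix.transpose_apply]
  have : ∀ v, CC ω v i * (resD (adj ω.1) (centres ω) z * CC ω) v j
      = (adj ω.1 v (ω.2.1 i) : ℂ) * (resD (adj ω.1) (centres ω) z * CC ω) v j := fun v => rfl
  rw [Finset.sum_congr rfl (fun v _ => this v), sum_adj_star (ZZs_star hω i)]
  unfold BB
  simp only [ite_mul, one_mul, zero_mul]
  rw [Fintype.sum_prod_type, Finset.sum_eq_single i]
  · rw [Finset.sum_congr rfl (fun k _ => if_pos rfl)]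
    apply Finset.sum_congr rfl
    intro k _
    exact RC_lead hω z (i, k) j
  · intro b _ hb
    apply Finset.sum_eq_zero
    intro k _
    rw [if_neg hb]
  · intro h
    exact absurd (Finset.mem_univ _) h

/-- The block Schur formula on the pattern. -/
theorem starMat_eq (hω : ω ∈ ZZs n d K) (z : ℂ)
    (hcut : IsUnit (cutMat (adj ω.1) (centres ω) z).det)
    (hW : IsUnit (WWm (leadMat ω z) z).det) :
    starMat ω z = QofR (leadMat ω z) z := by
  have hcr := CRC hω z
  have hW' : IsUnit (-(z • (1 : Matrix (Fin K) (Fin K) ℂ)) -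
      (CC ω)ᵀ * (cutMat (adj ω.1) (centres ω) z)⁻¹ * CC ω).det := by
    have : (CC ω)ᵀ * (cutMat (adj ω.1) (centres ω) z)⁻¹ * CC ω =
      (BB d K)ᵀ * leadMat ω z * BB d K := hcr
    rw [this]
    exact hW
  have key := inv_of_cut (cutMat (adj ω.1) ∅ z) (cutMat (adj ω.1) (centres ω) z) (PP ω) (CC ω) z
    hcut hW' (PP_PP hω) (CC_PP hω) (cut_PP z) (cut_symm _ _ _) (cut_decomp hω z)
  have hWeq : (-(z • (1 : Matrix (Fin K) (Fin K) ℂ)) -
      (CC ω)ᵀ * (cutMat (adj ω.1) (centres ω) z)⁻¹ * CC ω) = WWm (leadMat ω z) z := by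
    have : (CC ω)ᵀ * (cutMat (adj ω.1) (centres ω) z)⁻¹ * CC ω =
      (BB d K)ᵀ * leadMat ω z * BB d K := hcr
    rw [this]
    rfl
  rw [hWeq] at key
  have hT : ∀ (a : Fin K × Option (Fin d)) (j : Fin K),
      (PP ω - (cutMat (adj ω.1) (centres ω) z)⁻¹ * CC ω) (pos ω a) j = TT (leadMat ω z) a j := by
    rintro ⟨i, o⟩ j
    rw [Matrix.sub_apply]
    rcases o with _ | k
    · have h1 := RC_centre hω z hcut i j
      have h2 : ((cutMat (adj ω.1) (centres ω) z)⁻¹ * CC ω) (pos ω (i, none)) j = 0 := h1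
      rw [h2, sub_zero]
      show (if ω.2.1 i = ω.2.1 j then (1 : ℂ) else 0) = if i = j then 1 else 0
      by_cases hij : i = j
      · rw [if_pos (by rw [hij]), if_pos hij]
      · rw [if_neg (fun h => hij (ZZs_injv hω h)), if_neg hij]
    · have h1 := RC_lead hω z (i, k) j
      have h2 : ((cutMat (adj ω.1) (centres ω) z)⁻¹ * CC ω) (pos ω (i, some k)) j =
        (leadMat ω z * BB d K) (i, k) j := h1
      rw [h2]
      show (if ω.2.2 i k = ω.2.1 j then (1 : ℂ) else 0) - _ = -(leadMat ω z * BB d K) (i, k) j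
      rw [if_neg (ZZs_ne hω i k j), zero_sub]
  ext a b
  show (resD (adj ω.1) ∅ z) (pos ω a) (pos ω b) = _
  unfold resD
  rw [key]
  unfold QofR
  rw [Matrix.add_apply, Matrix.add_apply]
  congr 1
  · -- the lead part
    rw [Matrix.sub_apply]
    obtain ⟨i, o⟩ := a
    obtain ⟨j, o'⟩ := b
    have hres : ∀ v w, (cutMat (adj ω.1) (centres ω) z)⁻¹ v w =
      resD (adj ω.1) (centres ω) z v w := fun _ _ => rfl
    have hsymm : ∀ v w, resD (adj ω.1) (centres ω) z v w = resD (adj ω.1) (centres ω) z w v := by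
      intro v w
      have := congrFun (congrFun (res_symm ω.1 (centres ω) z) w) v
      rw [Matrix.transpose_apply] at this
      exact this
    have hPPl : ∀ i k j, PP ω (ω.2.2 i k) j = 0 := fun i k j => by
      unfold PP
      rw [if_neg (ZZs_ne hω i k j)]
    rcases o with _ | k
    · rcases o' with _ | k'
      · show (cutMat (adj ω.1) (centres ω) z)⁻¹ (ω.2.1 i) (ω.2.1 j) -
          (PP ω * (PP ω)ᵀ) (ω.2.1 i) (ω.2.1 j) = 0
        rw [hres, res_centre z hcut, Matrix.mul_apply]
        simp only [Matrix.transpose_apply, PP]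
        rw [Finset.sum_eq_single i]
        · rw [if_pos rfl, one_mul]
          by_cases hij : i = j
          · rw [hij]; simp
          · rw [if_neg (fun h => hij (ZZs_injv hω h)), if_neg (fun h => hij (ZZs_injv hω h).symm)]
            simp
        · intro x _ hx
          rw [if_neg (fun h => hx (ZZs_injv hω h).symm), zero_mul]
        · intro h
          exact absurd (Finset.mem_univ _) h
      · show (cutMat (adj ω.1) (centres ω) z)⁻¹ (ω.2.1 i) (ω.2.2 j k') -
          (PP ω * (PP ω)ᵀ) (ω.2.1 i) (ω.2.2 j k') = 0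
        rw [hres, hsymm, res_centre z hcut, if_neg (ZZs_ne hω j k' i), Matrix.mul_apply]
        simp only [Matrix.transpose_apply, hPPl, mul_zero, Finset.sum_const_zero, sub_zero]
    · rcases o' with _ | k'
      · show (cutMat (adj ω.1) (centres ω) z)⁻¹ (ω.2.2 i k) (ω.2.1 j) -
          (PP ω * (PP ω)ᵀ) (ω.2.2 i k) (ω.2.1 j) = 0
        rw [hres, res_centre z hcut, if_neg (ZZs_ne hω i k j), Matrix.mul_apply]
        simp only [hPPl, zero_mul, Finset.sum_const_zero, sub_zero]
      · show (cutMat (adj ω.1) (centres ω) z)⁻¹ (ω.2.2 i k) (ω.2.2 j k') -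
          (PP ω * (PP ω)ᵀ) (ω.2.2 i k) (ω.2.2 j k') = leadMat ω z (i, k) (j, k')
        rw [hres, Matrix.mul_apply]
        simp only [hPPl, zero_mul, Finset.sum_const_zero, sub_zero]
        rfl
  · rw [Matrix.mul_apply, Matrix.mul_apply]
    apply Finset.sum_congr rfl
    intro j _
    rw [Matrix.mul_apply, Matrix.mul_apply]
    simp only [Matrix.transpose_apply, hT]

end

end H520

end

end Vale.Agent.P156
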