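import Mathlib
import Vale.Agent.P156.Defs
import Vale.Agent.P156.R2.Defs

/-! Common definitions for Part C (soft local law). -/

open MeasureTheory Filter Topology Matrix Finset

namespace Vale.Agent.P156

noncomputable section

/-- Weights of the directed edges `(v, w)`. -/
def ew (d : ℕ) {n : ℕ} (G : SimpleGraph (Fin n)) (e : Fin n × Fin n) : ℝ :=
  adj G e.1 e.2 / ((n : ℝ) * d)

/-- The cavity resolvent entry `R^{v}_{ww}(z)` of the directed edge `e = (v, w)`. -/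
def hc {n : ℕ} (G : SimpleGraph (Fin n)) (z : ℂ) (e : Fin n × Fin n) : ℂ :=
  resD (adj G) {e.1} z e.2 e.2

/-- Weighted average. -/
def wavg {ι : Type*} [Fintype ι] (p : ι → ℝ) (F : ι → ℝ) : ℝ := ∑ i, p i * F i

/-- Weighted average over independent `q`-tuples. -/
def wavgq {ι : Type*} [Fintype ι] (q : ℕ) (p : ι → ℝ) (F : (Fin q → ι) → ℝ) : ℝ :=
  ∑ t : Fin q → ι, (∏ k, p (t k)) * F t

/-- Defect of the recursion for the test function `F`, for a family `h` with weights `p`. -/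
def dfctW {ι : Type*} [Fintype ι] (q : ℕ) (p : ι → ℝ) (h : ι → ℂ) (z : ℂ) (F : ℂ → ℝ) : ℝ :=
  wavg p (fun e => F (h e)) - wavgq q p (fun t => F (-1 / (z + ∑ k, h (t k))))

/-- Defect of the recursion on the graph `G`. -/
def dfct (d : ℕ) {n : ℕ} (G : SimpleGraph (Fin n)) (z : ℂ) (F : ℂ → ℝ) : ℝ :=
  dfctW (d - 1) (ew d G) (hc G z) z F

/-- The class of test functions: bounded by `B`, Lipschitz in `h` and in `-1/h` on the upper half
plane. -/
def TestF (B Lip : ℝ) (F : ℂ → ℝ) : Prop :=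
  (∀ h : ℂ, 0 < h.im → |F h| ≤ B) ∧
  ∀ h h' : ℂ, 0 < h.im → 0 < h'.im →
    |F h - F h'| ≤ Lip * ‖h - h'‖ ∧ |F (-1 / h) - F (-1 / h')| ≤ Lip * ‖h - h'‖

end

end Vale.Agent.P156
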