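import Mathlib
import Vale.Agent.P156.Defs
import Vale.Agent.P156.R2.Defs
import Vale.Agent.P156.H520.Schur

/-! Scalar identities for the tree quantities, and the value of `QofR` at the tree point. -/

open MeasureTheory Filter Topology Matrix Finset

namespace Vale.Agent.P156

noncomputable section

namespace H520

section scalar

variable {d : ℕ} {E : ℝ}

theorem bulk_pos (hd : 3 ≤ d) (hE : |E| < 2 * Real.sqrt ((d : ℝ) - 1)) :
    0 < 4 * ((d : ℝ) - 1) - E ^ 2 := by
  have h1 : (0 : ℝ) ≤ (d : ℝ) - 1 := by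
    have : (3 : ℝ) ≤ d := by exact_mod_cast hd
    linarith
  have h2 : |E| ^ 2 < (2 * Real.sqrt ((d : ℝ) - 1)) ^ 2 := by
    apply pow_lt_pow_left₀ hE (abs_nonneg _) (by norm_num)
  rw [sq_abs, mul_pow, Real.sq_sqrt h1] at h2
  linarith

theorem mE_im (hd : 3 ≤ d) : (mE d E).im = Real.sqrt (4 * ((d : ℝ) - 1) - E ^ 2) /
    (2 * ((d : ℝ) - 1)) := by
  have h1 : (2 * ((d : ℂ) - 1)) = ((2 * ((d : ℝ) - 1) : ℝ) : ℂ) := by push_cast; ring
  unfold mE
  rw [h1, Complex.div_ofReal_im]
  simp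

theorem mE_re (hd : 3 ≤ d) : (mE d E).re = -E / (2 * ((d : ℝ) - 1)) := by
  have h1 : (2 * ((d : ℂ) - 1)) = ((2 * ((d : ℝ) - 1) : ℝ) : ℂ) := by push_cast; ring
  unfold mE
  rw [h1, Complex.div_ofReal_re]
  simp

theorem mE_im_pos (hd : 3 ≤ d) (hE : |E| < 2 * Real.sqrt ((d : ℝ) - 1)) : 0 < (mE d E).im := by
  rw [mE_im hd]
  have h1 : (0 : ℝ) < (d : ℝ) - 1 := by
    have : (3 : ℝ) ≤ d := by exact_mod_cast hd
    linarith
  exact div_pos (Real.sqrt_pos.2 (bulk_pos hd hE)) (by linarith)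

theorem mE_eq (hd : 3 ≤ d) (hE : |E| < 2 * Real.sqrt ((d : ℝ) - 1)) :
    ((d : ℂ) - 1) * mE d E ^ 2 + E * mE d E + 1 = 0 := by
  have h1 : (0 : ℝ) < (d : ℝ) - 1 := by
    have : (3 : ℝ) ≤ d := by exact_mod_cast hd
    linarith
  have h1' : ((d : ℂ) - 1) ≠ 0 := by
    have : ((d : ℂ) - 1) = (((d : ℝ) - 1 : ℝ) : ℂ) := by push_cast; ring
    rw [this]
    exact_mod_cast h1.ne'
  have hs : ((Real.sqrt (4 * ((d : ℝ) - 1) - E ^ 2) : ℝ) : ℂ) ^ 2 =
      4 * ((d : ℂ) - 1) - (E : ℂ) ^ 2 := by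
    rw [← Complex.ofReal_pow, Real.sq_sqrt (bulk_pos hd hE).le]
    push_cast
    ring
  unfold mE
  rw [div_pow, add_sq, mul_pow, hs, Complex.I_sq]
  field_simp
  ring

theorem mE_ne (hd : 3 ≤ d) (hE : |E| < 2 * Real.sqrt ((d : ℝ) - 1)) : mE d E ≠ 0 := by
  intro h
  have := mE_im_pos hd hE
  rw [h] at this
  simp at this

theorem Edm_im (hd : 3 ≤ d) (hE : |E| < 2 * Real.sqrt ((d : ℝ) - 1)) :
    0 < ((E : ℂ) + d * mE d E).im := by
  have h1 : (0 : ℝ) < d := by
    have : (3 : ℝ) ≤ d := by exact_mod_cast hd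
    linarith
  have : ((E : ℂ) + d * mE d E).im = d * (mE d E).im := by
    simp [Complex.add_im, Complex.mul_im]
  rw [this]
  exact mul_pos h1 (mE_im_pos hd hE)

theorem Edm_ne (hd : 3 ≤ d) (hE : |E| < 2 * Real.sqrt ((d : ℝ) - 1)) :
    (E : ℂ) + d * mE d E ≠ 0 := by
  intro h
  have := Edm_im hd hE
  rw [h] at this
  simp at this

/-- `(E + d m) m = m² - 1`. -/
theorem Edm_mul (hd : 3 ≤ d) (hE : |E| < 2 * Real.sqrt ((d : ℝ) - 1)) :
    ((E : ℂ) + d * mE d E) * mE d E = mE d E ^ 2 - 1 := by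
  have := mE_eq hd hE
  linear_combination this

theorem mdE_eq (hd : 3 ≤ d) (hE : |E| < 2 * Real.sqrt ((d : ℝ) - 1)) :
    mdE d E * (1 - mE d E ^ 2) = mE d E := by
  unfold mdE
  have h1 := Edm_ne hd hE
  field_simp
  have := Edm_mul hd hE
  linear_combination -this

end scalar

/-- A tree point at a complex spectral parameter: `q m² + z m + 1 = 0`, `Im m > 0`. -/
theorem zdm_mul {d : ℕ} {z m : ℂ} (h : ((d : ℂ) - 1) * m ^ 2 + z * m + 1 = 0) :
    (z + d * m) * m = m ^ 2 - 1 := by
  linear_combination h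

/-- Generic tree resolvent on `K` stars. -/
def Kz (d : ℕ) (z m : ℂ) (K : ℕ) :
    Matrix (Fin K × Option (Fin d)) (Fin K × Option (Fin d)) ℂ :=
  fun x y => if x.1 = y.1 then (-1 / (z + d * m)) * (-m) ^ starDist x.2 y.2 else 0

theorem KE_eq_Kz (d : ℕ) (E : ℝ) (K : ℕ) : KE d E K = Kz d E (mE d E) K := rfl

theorem WWm_scalar {d K : ℕ} (z m : ℂ) :
    WWm (m • (1 : Matrix (Fin K × Fin d) (Fin K × Fin d) ℂ)) z =
      (-(z + d * m)) • (1 : Matrix (Fin K) (Fin K) ℂ) := by
  unfold WWm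
  rw [Matrix.mul_smul, Matrix.mul_one, Matrix.smul_mul]
  have hB : (BB d K)ᵀ * BB d K = (d : ℂ) • (1 : Matrix (Fin K) (Fin K) ℂ) := by
    ext i j
    rw [Matrix.mul_apply]
    simp only [Matrix.transpose_apply, BB, Matrix.smul_apply, Matrix.one_apply, smul_eq_mul,
      mul_ite, mul_one, mul_zero, ite_mul, one_mul, zero_mul]
    rw [Fintype.sum_prod_type]
    rw [Finset.sum_eq_single i]
    · by_cases hij : i = j
      · simp [hij]
      · simp [hij]
    · intro b _ hb
      simp [hb]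
    · intro h
      exact absurd (Finset.mem_univ _) h
  rw [hB]
  ext i j
  simp only [Matrix.sub_apply, Matrix.neg_apply, Matrix.smul_apply, Matrix.one_apply, smul_eq_mul]
  split_ifs <;> ring

theorem QofR_scalar {d K : ℕ} {z m : ℂ} (h : ((d : ℂ) - 1) * m ^ 2 + z * m + 1 = 0)
    (hne : z + d * m ≠ 0) :
    QofR (m • (1 : Matrix (Fin K × Fin d) (Fin K × Fin d) ℂ)) z = Kz d z m K := by
  have hinv : (WWm (m • (1 : Matrix (Fin K × Fin d) (Fin K × Fin d) ℂ)) z)⁻¹ =
      (-1 / (z + d * m)) • (1 : Matrix (Fin K) (Fin K) ℂ) := by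
    rw [WWm_scalar]
    apply Matrix.inv_eq_right_inv
    rw [Matrix.smul_mul, Matrix.mul_smul, Matrix.one_mul, smul_smul]
    have : -(z + d * m) * (-1 / (z + d * m)) = 1 := by field_simp
    rw [this, one_smul]
  have hmd : (-1 / (z + d * m)) * (1 - m ^ 2) = m := by
    field_simp
    linear_combination -(zdm_mul h)
  unfold QofR
  rw [hinv]
  ext ⟨i, o⟩ ⟨j, o'⟩
  rw [Matrix.add_apply, Matrix.mul_smul, Matrix.mul_one, Matrix.smul_mul, Matrix.smul_apply,
    Matrix.mul_apply]
  simp only [Matrix.transpose_apply, smul_eq_mul]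
  have hRB : ∀ (p : Fin K × Fin d) (x : Fin K),
      ((m • (1 : Matrix (Fin K × Fin d) (Fin K × Fin d) ℂ)) * BB d K) p x =
        if p.1 = x then m else 0 := by
    intro p x
    rw [Matrix.smul_mul, Matrix.one_mul, Matrix.smul_apply]
    unfold BB
    simp
  have hT : ∀ (i : Fin K) (o : Option (Fin d)) (x : Fin K),
      TT (m • (1 : Matrix (Fin K × Fin d) (Fin K × Fin d) ℂ)) (i, o) x =
        if i = x then (if o = none then 1 else -m) else 0 := by
    intro i o x
    rcases o with _ | k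
    · show (if i = x then (1 : ℂ) else 0) = _
      simp
    · show -((m • (1 : Matrix (Fin K × Fin d) (Fin K × Fin d) ℂ)) * BB d K) (i, k) x = _
      rw [hRB]
      by_cases hix : i = x
      · simp [hix]
      · simp [hix]
  have hsum : ∑ x, TT (m • (1 : Matrix (Fin K × Fin d) (Fin K × Fin d) ℂ)) (i, o) x *
      TT (m • (1 : Matrix (Fin K × Fin d) (Fin K × Fin d) ℂ)) (j, o') x =
      if i = j then (if o = none then 1 else -m) * (if o' = none then 1 else -m) else 0 := by
    rw [Finset.sum_eq_single i]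
    · rw [hT, hT]
      by_cases hij : i = j
      · simp [hij]
      · rw [if_pos rfl, if_neg (Ne.symm hij), if_neg hij, mul_zero]
    · intro x _ hx
      rw [hT, if_neg (Ne.symm hx), zero_mul]
    · intro h
      exact absurd (Finset.mem_univ _) h
  rw [hsum]
  unfold Kz
  by_cases hij : i = j
  · subst hij
    simp only [if_true]
    rcases o with _ | k
    · rcases o' with _ | k'
      · simp [LLm, starDist]
      · simp [LLm, starDist]
    · rcases o' with _ | k'
      · simp [LLm, starDist]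
      · have hL : LLm (m • (1 : Matrix (Fin K × Fin d) (Fin K × Fin d) ℂ)) (i, some k)
            (i, some k') = if k = k' then m else 0 := by
          show (m • (1 : Matrix (Fin K × Fin d) (Fin K × Fin d) ℂ)) (i, k) (i, k') = _
          rw [Matrix.smul_apply, Matrix.one_apply]
          by_cases hk : k = k'
          · simp [hk]
          · simp [hk]
        rw [hL]
        by_cases hk : k = k'
        · subst hk
          simp only [if_true, starDist, pow_zero, mul_one, reduceCtorEq, if_false]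
          linear_combination -hmd
        · simp only [hk, if_false, starDist, reduceCtorEq, or_self, Option.some.injEq, zero_add]
          ring
  · simp only [hij, if_false, mul_zero, add_zero]
    rcases o with _ | k
    · rfl
    · rcases o' with _ | k'
      · rfl
      · show (m • (1 : Matrix (Fin K × Fin d) (Fin K × Fin d) ℂ)) (i, k) (j, k') = 0
        rw [Matrix.smul_apply, Matrix.one_apply_ne (fun h => hij (Prod.ext_iff.1 h).1)]
        simp

end H520

end

end Vale.Agent.P156
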