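import Mathlib
import Vale.Agent.P156.Defs
import Vale.Agent.P156.R2.Defs
import Vale.Agent.P156.H520.Schur
import Vale.Agent.P156.H520.Tree

/-! Uniform continuity of `QofR` near the tree points. -/

open MeasureTheory Filter Topology Matrix Finset

namespace Vale.Agent.P156

noncomputable section

namespace H520

variable {d K : ℕ}

/-- Lead matrices and spectral parameters, as a metric space. -/
abbrev XX (d K : ℕ) : Type := ((Fin K × Fin d) → (Fin K × Fin d) → ℂ) × ℂ

theorem continuous_WWm :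
    Continuous (fun p : Matrix (Fin K × Fin d) (Fin K × Fin d) ℂ × ℂ => WWm p.1 p.2) := by
  unfold WWm
  exact ((continuous_snd.smul continuous_const).neg).sub
    ((continuous_const.matrix_mul continuous_fst).matrix_mul continuous_const)

theorem continuous_TT :
    Continuous (fun p : Matrix (Fin K × Fin d) (Fin K × Fin d) ℂ × ℂ => TT p.1) := by
  have h : Continuous (fun p : Matrix (Fin K × Fin d) (Fin K × Fin d) ℂ × ℂ => p.1 * BB d K) :=
    continuous_fst.matrix_mul continuous_const
  apply continuous_matrix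
  rintro ⟨i, o⟩ j
  rcases o with _ | k
  · exact continuous_const
  · exact ((h.matrix_elem (i, k) j)).neg

theorem continuous_LLm :
    Continuous (fun p : Matrix (Fin K × Fin d) (Fin K × Fin d) ℂ × ℂ => LLm p.1) := by
  apply continuous_matrix
  rintro ⟨i, o⟩ ⟨j, o'⟩
  rcases o with _ | k
  · exact continuous_const
  · rcases o' with _ | k'
    · exact continuous_const
    · exact continuous_fst.matrix_elem (i, k) (j, k')

theorem continuousAt_QofR (p : Matrix (Fin K × Fin d) (Fin K × Fin d) ℂ × ℂ)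
    (hp : (WWm p.1 p.2).det ≠ 0) :
    ContinuousAt (fun p : Matrix (Fin K × Fin d) (Fin K × Fin d) ℂ × ℂ => QofR p.1 p.2) p := by
  unfold QofR
  have h1 : ContinuousAt (fun p : Matrix (Fin K × Fin d) (Fin K × Fin d) ℂ × ℂ =>
      (WWm p.1 p.2)⁻¹) p := by
    have h2 : ContinuousAt (Inv.inv : Matrix (Fin K) (Fin K) ℂ → Matrix (Fin K) (Fin K) ℂ)
        (WWm p.1 p.2) := by
      apply continuousAt_matrix_inv
      rw [Ring.inverse_eq_inv']
      exact continuousAt_inv₀ hp
    exact ContinuousAt.comp (f := fun p : Matrix (Fin K × Fin d) (Fin K × Fin d) ℂ × ℂ =>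
      WWm p.1 p.2) h2 continuous_WWm.continuousAt
  have h3 : ContinuousAt (fun p : Matrix (Fin K × Fin d) (Fin K × Fin d) ℂ × ℂ =>
      TT p.1 * (WWm p.1 p.2)⁻¹ * (TT p.1)ᵀ) p := by
    have hm : Continuous (fun q : Matrix (Fin K × Option (Fin d)) (Fin K) ℂ ×
        Matrix (Fin K) (Fin K) ℂ => q.1 * q.2 * q.1ᵀ) :=
      (continuous_fst.matrix_mul continuous_snd).matrix_mul continuous_fst.matrix_transpose
    exact ContinuousAt.comp (g := fun q : Matrix (Fin K × Option (Fin d)) (Fin K) ℂ ×
        Matrix (Fin K) (Fin K) ℂ => q.1 * q.2 * q.1ᵀ)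
      (f := fun p : Matrix (Fin K × Fin d) (Fin K × Fin d) ℂ × ℂ => (TT p.1, (WWm p.1 p.2)⁻¹))
      hm.continuousAt (continuous_TT.continuousAt.prodMk h1)
  exact continuous_LLm.continuousAt.add h3

/-- Uniform continuity of `QofR` near a compact set of tree points. -/
theorem QofR_unif (P : Set (ℂ × ℂ)) (hP : IsCompact P)
    (hP1 : ∀ p ∈ P, ((d : ℂ) - 1) * p.2 ^ 2 + p.1 * p.2 + 1 = 0)
    (hP2 : ∀ p ∈ P, p.1 + d * p.2 ≠ 0) (ε : ℝ) (hε : 0 < ε) :
    ∃ δ > 0, ∀ p ∈ P, ∀ (R : Matrix (Fin K × Fin d) (Fin K × Fin d) ℂ) (z : ℂ),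
      (∀ x y, ‖R x y - (if x = y then p.2 else 0)‖ ≤ δ) → ‖z - p.1‖ ≤ δ →
      IsUnit (WWm R z).det ∧ ∀ x y, ‖QofR R z x y - Kz d p.1 p.2 K x y‖ ≤ ε := by
  classical
  -- the metric version
  let toM : XX d K → Matrix (Fin K × Fin d) (Fin K × Fin d) ℂ × ℂ := fun p => (Matrix.of p.1, p.2)
  have htoM : Continuous toM := by
    apply Continuous.prodMk _ continuous_snd
    exact continuous_fst
  let f : XX d K → ℂ × ((Fin K × Option (Fin d)) → (Fin K × Option (Fin d)) → ℂ) :=
    fun p => ((WWm (toM p).1 (toM p).2).det, QofR (toM p).1 (toM p).2)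
  let g : ℂ × ℂ → XX d K := fun p => (fun x y => if x = y then p.2 else 0, p.1)
  have hg : Continuous g := by
    apply Continuous.prodMk _ continuous_fst
    apply continuous_pi
    intro x
    apply continuous_pi
    intro y
    by_cases hxy : x = y
    · simp only [hxy, if_true]
      exact continuous_snd
    · simp only [hxy, if_false]
      exact continuous_const
  have hgM : ∀ p : ℂ × ℂ, (toM (g p)).1 = p.2 • (1 : Matrix (Fin K × Fin d) (Fin K × Fin d) ℂ) := by
    intro p
    ext x y
    rw [Matrix.smul_apply, Matrix.one_apply]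
    show (if x = y then p.2 else 0) = _
    split_ifs <;> simp
  have hdet : ∀ p ∈ P, (f (g p)).1 = (-(p.1 + d * p.2)) ^ K := by
    intro p _
    show (WWm (toM (g p)).1 (toM (g p)).2).det = _
    rw [hgM]
    show (WWm (p.2 • (1 : Matrix (Fin K × Fin d) (Fin K × Fin d) ℂ)) p.1).det = _
    rw [WWm_scalar, Matrix.det_smul, Matrix.det_one, mul_one, Fintype.card_fin]
  have hdet0 : ∀ p ∈ P, (f (g p)).1 ≠ 0 := by
    intro p hp
    rw [hdet p hp]
    exact pow_ne_zero _ (neg_ne_zero.2 (hP2 p hp))
  have hS : IsCompact (g '' P) := hP.image hg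
  have hcont : ∀ a ∈ g '' P, ContinuousAt f a := by
    rintro _ ⟨p, hp, rfl⟩
    have h1 : ContinuousAt (fun q : XX d K => (WWm (toM q).1 (toM q).2).det) (g p) :=
      ((continuous_WWm.comp htoM).matrix_det).continuousAt
    have h2 : ContinuousAt (fun q : XX d K => QofR (toM q).1 (toM q).2) (g p) := by
      have := continuousAt_QofR (toM (g p)) (hdet0 p hp)
      exact ContinuousAt.comp (f := toM) this htoM.continuousAt
    exact h1.prodMk h2
  -- lower bound of the determinant
  obtain ⟨c, hc0, hc⟩ : ∃ c > 0, ∀ p ∈ P, c ≤ ‖(f (g p)).1‖ := by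
    by_cases hne : P.Nonempty
    · have hcn : ContinuousOn (fun p => ‖(f (g p)).1‖) P := by
        have : ∀ p ∈ P, (f (g p)).1 = (-(p.1 + d * p.2)) ^ K := hdet
        have h3 : ContinuousOn (fun p : ℂ × ℂ => ‖(-(p.1 + d * p.2)) ^ K‖) P := by
          apply Continuous.continuousOn
          fun_prop
        exact h3.congr (fun p hp => by
          show ‖(f (g p)).1‖ = _
          rw [this p hp])
      obtain ⟨p0, hp0, hmin⟩ := hP.exists_isMinOn hne hcn
      exact ⟨‖(f (g p0)).1‖, norm_pos_iff.2 (hdet0 p0 hp0), fun p hp => hmin hp⟩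
    · exact ⟨1, one_pos, fun p hp => absurd ⟨p, hp⟩ hne⟩
  have hunif := hS.uniformContinuousAt_of_continuousAt f hcont
    (Metric.dist_mem_uniformity (show 0 < min ε (c / 2) by positivity))
  obtain ⟨δ, hδ, hδ'⟩ := Metric.mem_uniformity_dist.1 hunif
  refine ⟨δ / 2, by positivity, fun p hp R z hR hz => ?_⟩
  have hdist : dist (g p) ((fun x y => R x y, z) : XX d K) < δ := by
    have h1 : dist (g p) ((fun x y => R x y, z) : XX d K) ≤ δ / 2 := by
      rw [Prod.dist_eq]
      apply max_le
      · rw [dist_pi_le_iff (by positivity)]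
        intro x
        rw [dist_pi_le_iff (by positivity)]
        intro y
        rw [dist_comm, dist_eq_norm]
        exact hR x y
      · rw [dist_comm, dist_eq_norm]
        exact hz
    linarith
  have h1 := hδ' hdist (Set.mem_image_of_mem g hp)
  have h2 : dist (f (g p)) (f ((fun x y => R x y, z) : XX d K)) < min ε (c / 2) := h1
  rw [Prod.dist_eq] at h2
  have h3 := lt_of_le_of_lt (le_max_left _ _) h2
  have h4 := lt_of_le_of_lt (le_max_right _ _) h2
  constructor
  · rw [isUnit_iff_ne_zero]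
    intro h0
    have h5 : dist (f (g p)).1 (f ((fun x y => R x y, z) : XX d K)).1 < c / 2 :=
      lt_of_lt_of_le h3 (min_le_right _ _)
    have h6 : (f ((fun x y => R x y, z) : XX d K)).1 = 0 := h0
    rw [h6, dist_zero_right] at h5
    have := hc p hp
    linarith
  · intro x y
    have h5 : dist (f (g p)).2 (f ((fun x y => R x y, z) : XX d K)).2 < ε :=
      lt_of_lt_of_le h4 (min_le_left _ _)
    have h6 := (dist_pi_lt_iff hε).1 h5 x
    have h7 := (dist_pi_lt_iff hε).1 h6 y
    rw [dist_comm, dist_eq_norm] at h7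
    have h8 : (f (g p)).2 x y = Kz d p.1 p.2 K x y := by
      show QofR (toM (g p)).1 (toM (g p)).2 x y = _
      rw [hgM]
      show QofR (p.2 • (1 : Matrix (Fin K × Fin d) (Fin K × Fin d) ℂ)) p.1 x y = _
      rw [QofR_scalar (hP1 p hp) (hP2 p hp)]
    rw [h8] at h7
    exact h7.le

end H520

end

end Vale.Agent.P156
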