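import Mathlib
import Vale.Agent.P156.Defs
import Vale.Agent.P156.R2.Defs
import Vale.Agent.P156.R2.Spec
import Vale.Agent.P156.H801.Mat
import Vale.Agent.P156.H520.CDefs
import Vale.Agent.P156.H520.Schur
import Vale.Agent.P156.H520.Star
import Vale.Agent.P156.H520.Tree
import Vale.Agent.P156.H520.Cont

/-! From the cavity estimates to the soft local law on the stars: `SpecLL` and `SpecFix`. -/

open MeasureTheory Filter Topology Matrix Finset

namespace Vale.Agent.P156

noncomputable section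

/-! ### Inputs -/

/-- Bulk interval. -/
def BulkI (d : ℕ) (a b : ℝ) : Prop :=
  a < b ∧ -(2 * Real.sqrt ((d : ℝ) - 1)) < a ∧ b < 2 * Real.sqrt ((d : ℝ) - 1)

/-- C3, soft form: off-diagonal entries of the lead matrix. -/
def OffLL (d : ℕ) : Prop :=
  ∀ a b : ℝ, BulkI d a b → ∀ (K : ℕ) (x y : Fin K × Fin d), x ≠ y → ∀ ε > 0, ∃ L₀ : ℝ, ∀ L ≥ L₀,
    ∀ᶠ n in admissible d,
      ∫ E in a..b, avg (WW n d K)
        (fun ω => min 1 ‖leadMat ω ((E : ℂ) + ((L / n : ℝ) : ℂ) * Complex.I) x y‖) ≤ ε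

/-- C4, soft form: stability of the diagonal entries. -/
def StabLL (d : ℕ) : Prop :=
  ∀ a b : ℝ, BulkI d a b → ∀ (K : ℕ) (x : Fin K × Fin d), ∀ ε > 0, ∃ L₀ : ℝ, ∀ L ≥ L₀,
    ∀ᶠ n in admissible d,
      ∫ E in a..b, avg (WW n d K)
        (fun ω => min 1 ‖leadMat ω ((E : ℂ) + ((L / n : ℝ) : ℂ) * Complex.I) x x -
          hc ω.1 ((E : ℂ) + ((L / n : ℝ) : ℂ) * Complex.I) (ω.2.1 x.1, ω.2.2 x.1 x.2)‖) ≤ ε

/-- Cavity entries are close to `m` (block 15, second half, and C5-C9). -/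
def OutLL (d : ℕ) : Prop :=
  ∀ a b : ℝ, BulkI d a b → ∀ ε > 0, ∃ L₀ : ℝ, ∀ L ≥ L₀, ∀ᶠ n in admissible d,
    ∫ E in a..b, avg (regularGraphs n d) (fun G => wavg (ew d G)
      (fun e => min 1 ‖hc G ((E : ℂ) + ((L / n : ℝ) : ℂ) * Complex.I) e - mE d E‖)) ≤ ε

/-- Marginal law of one lead: a uniform directed edge. -/
def Marg (d : ℕ) : Prop :=
  ∀ (n : ℕ), d < n → Even (n * d) → ∀ (K : ℕ) (j : Fin K) (k : Fin d)
    (Φ : SimpleGraph (Fin n) → Fin n × Fin n → ℝ),
    avg (WW n d K) (fun ω => Φ ω.1 (ω.2.1 j, ω.2.2 j k)) =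
      avg (regularGraphs n d) (fun G => wavg (ew d G) (Φ G))

/-- C3 at fixed spectral parameter. -/
def OffFix (d : ℕ) : Prop :=
  ∀ z : ℂ, 0 < z.im → ∀ (K : ℕ) (x y : Fin K × Fin d), x ≠ y → ∀ ε > 0,
    ∀ᶠ n in admissible d, avg (WW n d K) (fun ω => min 1 ‖leadMat ω z x y‖) ≤ ε

/-- C4 at fixed spectral parameter. -/
def StabFix (d : ℕ) : Prop :=
  ∀ z : ℂ, 0 < z.im → ∀ (K : ℕ) (x : Fin K × Fin d), ∀ ε > 0,
    ∀ᶠ n in admissible d, avg (WW n d K)
      (fun ω => min 1 ‖leadMat ω z x x - hc ω.1 z (ω.2.1 x.1, ω.2.2 x.1 x.2)‖) ≤ ε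

/-- Cavity entries at fixed spectral parameter, for energies with property `P`. -/
def OutFix (d : ℕ) (P : ℝ → Prop) : Prop :=
  ∀ E η : ℝ, P E → 0 < η → ∀ m : ℂ, IsTreeStieltjes d ((E : ℂ) + η * Complex.I) m → ∀ ε > 0,
    ∀ᶠ n in admissible d, avg (regularGraphs n d) (fun G => wavg (ew d G)
      (fun e => min 1 ‖hc G ((E : ℂ) + η * Complex.I) e - m‖)) ≤ ε

namespace H520

section tools

theorem avg_mono {α : Type*} {s : Finset α} {Φ Ψ : α → ℝ} (h : ∀ ω ∈ s, Φ ω ≤ Ψ ω) :
    avg s Φ ≤ avg s Ψ := by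
  unfold avg
  gcongr with ω hω
  exact h ω hω

theorem avg_add {α : Type*} (s : Finset α) (Φ Ψ : α → ℝ) :
    avg s (fun ω => Φ ω + Ψ ω) = avg s Φ + avg s Ψ := by
  unfold avg
  rw [Finset.sum_add_distrib, add_div]

theorem avg_const_mul {α : Type*} (s : Finset α) (c : ℝ) (Φ : α → ℝ) :
    avg s (fun ω => c * Φ ω) = c * avg s Φ := by
  unfold avg
  rw [← Finset.mul_sum, mul_div_assoc]

theorem avg_sum {α ι : Type*} (s : Finset α) (t : Finset ι) (Φ : ι → α → ℝ) :
    avg s (fun ω => ∑ i ∈ t, Φ i ω) = ∑ i ∈ t, avg s (Φ i) := by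
  unfold avg
  rw [Finset.sum_comm, Finset.sum_div]

theorem avg_nonneg {α : Type*} {s : Finset α} {Φ : α → ℝ} (h : ∀ ω ∈ s, 0 ≤ Φ ω) :
    0 ≤ avg s Φ := div_nonneg (Finset.sum_nonneg h) (Nat.cast_nonneg _)

theorem prob_nonneg {α : Type*} (s : Finset α) (P : α → Prop) : 0 ≤ prob s P := by
  classical
  unfold prob
  apply avg_nonneg
  intro ω _
  split_ifs <;> norm_num

theorem ite_le_one' (P : Prop) {h : Decidable P} : @ite ℝ P h 1 0 ≤ 1 := by
  split_ifs <;> norm_num

theorem ite_nonneg' (P : Prop) {h : Decidable P} : (0 : ℝ) ≤ @ite ℝ P h 1 0 := by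
  split_ifs <;> norm_num

theorem int_affine {ι : Type*} [Fintype ι] (a b c0 c1 : ℝ) (F : ι → ℝ → ℝ)
    (hF : ∀ p, Continuous (F p)) :
    ∫ E in a..b, (c0 + ∑ p, c1 * F p E) = (b - a) * c0 + ∑ p, c1 * ∫ E in a..b, F p E := by
  have h1 : Continuous (fun E => ∑ p, c1 * F p E) :=
    continuous_finsetSum _ fun p _ => continuous_const.mul (hF p)
  have h2 : ∫ E in a..b, ∑ p, c1 * F p E = ∑ p, ∫ E in a..b, c1 * F p E := by
    apply intervalIntegral.integral_finsetSum
    intro p _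
    exact (continuous_const.mul (hF p)).intervalIntegrable _ _
  rw [intervalIntegral.integral_add (continuous_const.intervalIntegrable _ _)
    (h1.intervalIntegrable _ _), intervalIntegral.integral_const, smul_eq_mul, h2]
  congr 1
  apply Finset.sum_congr rfl
  intro p _
  rw [intervalIntegral.integral_const_mul]

/-- Monotonicity of the interval integral without integrability of the left side. -/
theorem int_le {a b : ℝ} (hab : a ≤ b) {f g : ℝ → ℝ} (hg : IntervalIntegrable g volume a b)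
    (hg0 : ∀ E ∈ Set.Icc a b, 0 ≤ g E) (h : ∀ E ∈ Set.Icc a b, f E ≤ g E) :
    ∫ E in a..b, f E ≤ ∫ E in a..b, g E := by
  by_cases hf : IntervalIntegrable f volume a b
  · exact intervalIntegral.integral_mono_on hab hf hg h
  · rw [intervalIntegral.integral_undef hf]
    exact intervalIntegral.integral_nonneg hab hg0

theorem adm_pos {d : ℕ} : ∀ᶠ n in admissible d, 0 < n := by
  unfold admissible
  rw [Filter.eventually_inf_principal]
  filter_upwards [Filter.eventually_gt_atTop 0] with n hn _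
  exact hn

theorem adm_mem {d : ℕ} : ∀ᶠ n in admissible d, d < n ∧ Even (n * d) := by
  unfold admissible
  rw [Filter.eventually_inf_principal]
  exact Filter.Eventually.of_forall fun n hn => hn

theorem adm_ge {d : ℕ} (N : ℕ) : ∀ᶠ n in admissible d, N ≤ n := by
  unfold admissible
  rw [Filter.eventually_inf_principal]
  filter_upwards [Filter.eventually_ge_atTop N] with n hn _
  exact hn

theorem zim (E : ℝ) {η : ℝ} : (((E : ℂ) + (η : ℂ) * Complex.I)).im = η := by simp

theorem isUnit_cut {n : ℕ} (G : SimpleGraph (Fin n)) (D : Finset (Fin n)) {z : ℂ}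
    (hz : z.im ≠ 0) : IsUnit (cutMat (adj G) D z).det :=
  H801.isUnit_cutMat (adj_isHermitian G) D (H801.eig_sub_ne (adj_isHermitian G) D hz)

theorem continuous_cut {n : ℕ} (G : SimpleGraph (Fin n)) (D : Finset (Fin n)) (η : ℝ) :
    Continuous (fun E : ℝ => cutMat (adj G) D ((E : ℂ) + (η : ℂ) * Complex.I)) := by
  apply continuous_matrix
  intro v w
  unfold cutMat
  by_cases h : v ∈ D ∨ w ∈ D
  · simp only [h, if_true]
    exact continuous_const
  · simp only [h, if_false]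
    by_cases hvw : v = w
    · simp only [hvw, if_true]
      fun_prop
    · simp only [hvw, if_false]
      fun_prop

theorem continuous_resD {n : ℕ} (G : SimpleGraph (Fin n)) (D : Finset (Fin n)) {η : ℝ}
    (hη : η ≠ 0) :
    Continuous (fun E : ℝ => resD (adj G) D ((E : ℂ) + (η : ℂ) * Complex.I)) := by
  unfold resD
  rw [continuous_iff_continuousAt]
  intro E
  have h0 : (cutMat (adj G) D ((E : ℂ) + (η : ℂ) * Complex.I)).det ≠ 0 :=
    (isUnit_cut G D (by rw [zim]; exact hη)).ne_zero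
  have h2 : ContinuousAt (Inv.inv : Matrix (Fin n) (Fin n) ℂ → Matrix (Fin n) (Fin n) ℂ)
      (cutMat (adj G) D ((E : ℂ) + (η : ℂ) * Complex.I)) := by
    apply continuousAt_matrix_inv
    rw [Ring.inverse_eq_inv']
    exact continuousAt_inv₀ h0
  exact ContinuousAt.comp (f := fun E : ℝ => cutMat (adj G) D ((E : ℂ) + (η : ℂ) * Complex.I))
    h2 (continuous_cut G D η).continuousAt

theorem continuous_leadMat {n d K : ℕ} (ω : SimpleGraph (Fin n) × StarPos n d K) {η : ℝ}
    (hη : η ≠ 0) (x y : Fin K × Fin d) :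
    Continuous (fun E : ℝ => leadMat ω ((E : ℂ) + (η : ℂ) * Complex.I) x y) :=
  (continuous_resD ω.1 (centres ω) hη).matrix_elem _ _

theorem continuous_hc {n : ℕ} (G : SimpleGraph (Fin n)) {η : ℝ} (hη : η ≠ 0)
    (e : Fin n × Fin n) : Continuous (fun E : ℝ => hc G ((E : ℂ) + (η : ℂ) * Complex.I) e) :=
  (continuous_resD G {e.1} hη).matrix_elem _ _

theorem continuous_mE (d : ℕ) : Continuous (fun E : ℝ => mE d E) := by
  unfold mE
  apply Continuous.div_const
  fun_prop

theorem continuous_avg {α : Type*} (s : Finset α) {Φ : α → ℝ → ℝ}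
    (h : ∀ ω, Continuous (Φ ω)) : Continuous (fun E => avg s (fun ω => Φ ω E)) := by
  unfold avg
  exact (continuous_finsetSum _ (fun ω _ => h ω)).div_const _

theorem continuous_wavg {ι : Type*} [Fintype ι] (p : ι → ℝ) {Φ : ι → ℝ → ℝ}
    (h : ∀ ω, Continuous (Φ ω)) : Continuous (fun E => wavg p (fun ω => Φ ω E)) := by
  unfold wavg
  exact continuous_finsetSum _ (fun ω _ => continuous_const.mul (h ω))

theorem min_one_add (x y : ℝ) (hx : 0 ≤ x) (hy : 0 ≤ y) : min 1 (x + y) ≤ min 1 x + min 1 y := by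
  rcases le_total 1 x with h1 | h1
  · rw [min_eq_left h1]
    have : 0 ≤ min 1 y := le_min zero_le_one hy
    linarith [min_le_left 1 (x + y)]
  · rcases le_total 1 y with h2 | h2
    · rw [min_eq_left h2]
      have : 0 ≤ min 1 x := le_min zero_le_one hx
      linarith [min_le_left 1 (x + y)]
    · rw [min_eq_right h1, min_eq_right h2]
      exact min_le_right _ _

theorem bulk_abs_lt {d : ℕ} {a b E : ℝ} (h : BulkI d a b) (hE : E ∈ Set.Icc a b) :
    |E| < 2 * Real.sqrt ((d : ℝ) - 1) := by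
  rw [abs_lt]
  exact ⟨lt_of_lt_of_le h.2.1 hE.1, lt_of_le_of_lt hE.2 h.2.2⟩

end tools

/-- The lead matrix is close to `m`, averaged form. -/
def LeadLL (d : ℕ) : Prop :=
  ∀ a b : ℝ, BulkI d a b → ∀ (K : ℕ) (x y : Fin K × Fin d), ∀ ε > 0, ∃ L₀ : ℝ, ∀ L ≥ L₀,
    ∀ᶠ n in admissible d,
      ∫ E in a..b, avg (WW n d K)
        (fun ω => min 1 ‖leadMat ω ((E : ℂ) + ((L / n : ℝ) : ℂ) * Complex.I) x y -
          (if x = y then mE d E else 0)‖) ≤ ε

theorem leadLL {d : ℕ} (h3 : OffLL d) (h4 : StabLL d) (hO : OutLL d) (hM : Marg d) :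
    LeadLL d := by
  intro a b hab K x y ε hε
  by_cases hxy : x = y
  · subst hxy
    simp only [if_true]
    obtain ⟨L1, hL1⟩ := h4 a b hab K x (ε / 2) (by positivity)
    obtain ⟨L2, hL2⟩ := hO a b hab (ε / 2) (by positivity)
    refine ⟨max 1 (max L1 L2), fun L hL => ?_⟩
    have hLpos : 0 < L := lt_of_lt_of_le one_pos (le_trans (le_max_left _ _) hL)
    filter_upwards [hL1 L (le_trans (le_trans (le_max_left _ _) (le_max_right _ _)) hL),
      hL2 L (le_trans (le_trans (le_max_right _ _) (le_max_right _ _)) hL), adm_pos, adm_mem]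
      with n h1 h2 hn hadm
    have hη : L / (n : ℝ) ≠ 0 := by
      have : (0 : ℝ) < n := by exact_mod_cast hn
      positivity
    have e2 : ∀ E : ℝ, avg (regularGraphs n d) (fun G => wavg (ew d G)
        (fun e => min 1 ‖hc G ((E : ℂ) + ((L / n : ℝ) : ℂ) * Complex.I) e - mE d E‖)) =
        avg (WW n d K) (fun ω => min 1 ‖hc ω.1 ((E : ℂ) + ((L / n : ℝ) : ℂ) * Complex.I)
          (ω.2.1 x.1, ω.2.2 x.1 x.2) - mE d E‖) := by
      intro E
      exact (hM n hadm.1 hadm.2 K x.1 x.2 (fun G e =>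
        min 1 ‖hc G ((E : ℂ) + ((L / n : ℝ) : ℂ) * Complex.I) e - mE d E‖)).symm
    simp only [e2] at h2
    let f1 : ℝ → ℝ := fun E => avg (WW n d K)
      (fun ω => min 1 ‖leadMat ω ((E : ℂ) + ((L / n : ℝ) : ℂ) * Complex.I) x x -
        hc ω.1 ((E : ℂ) + ((L / n : ℝ) : ℂ) * Complex.I) (ω.2.1 x.1, ω.2.2 x.1 x.2)‖)
    let f2 : ℝ → ℝ := fun E => avg (WW n d K)
      (fun ω => min 1 ‖hc ω.1 ((E : ℂ) + ((L / n : ℝ) : ℂ) * Complex.I)
        (ω.2.1 x.1, ω.2.2 x.1 x.2) - mE d E‖)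
    have c1 : Continuous f1 :=
      continuous_avg _ (fun ω => continuous_const.min
        (((continuous_leadMat ω hη x x).sub (continuous_hc ω.1 hη _)).norm))
    have c2 : Continuous f2 :=
      continuous_avg _ (fun ω => continuous_const.min
        (((continuous_hc ω.1 hη _).sub (continuous_mE d)).norm))
    have h12 : ∫ E in a..b, (f1 E + f2 E) = (∫ E in a..b, f1 E) + ∫ E in a..b, f2 E :=
      intervalIntegral.integral_add (c1.intervalIntegrable _ _) (c2.intervalIntegrable _ _)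
    have h13 : ∫ E in a..b, f1 E ≤ ε / 2 := h1
    have h14 : ∫ E in a..b, f2 E ≤ ε / 2 := h2
    refine le_trans (int_le hab.1.le (g := fun E => f1 E + f2 E)
      ((c1.add c2).intervalIntegrable _ _) ?_ ?_) ?_
    · intro E _
      exact add_nonneg (avg_nonneg fun ω _ => le_min zero_le_one (norm_nonneg _))
        (avg_nonneg fun ω _ => le_min zero_le_one (norm_nonneg _))
    · intro E _
      show _ ≤ avg _ _ + avg _ _
      rw [← avg_add]
      apply avg_mono
      intro ω _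
      refine le_trans (min_le_min_left _ ?_) (min_one_add _ _ (norm_nonneg _)
        (norm_nonneg _))
      exact norm_sub_le_norm_sub_add_norm_sub _ _ _
    · rw [h12]
      linarith
  · obtain ⟨L₀, hL₀⟩ := h3 a b hab K x y hxy ε hε
    refine ⟨L₀, fun L hL => ?_⟩
    filter_upwards [hL₀ L hL] with n hn
    simpa only [hxy, if_false, sub_zero] using hn

theorem leadFix {d : ℕ} {P : ℝ → Prop} (h3 : OffFix d) (h4 : StabFix d) (hO : OutFix d P)
    (hM : Marg d) (E η : ℝ) (hE : P E) (hη : 0 < η) (m : ℂ)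
    (hm : IsTreeStieltjes d ((E : ℂ) + η * Complex.I) m) (K : ℕ) (x y : Fin K × Fin d) (ε : ℝ)
    (hε : 0 < ε) :
    ∀ᶠ n in admissible d, avg (WW n d K)
      (fun ω => min 1 ‖leadMat ω ((E : ℂ) + η * Complex.I) x y - (if x = y then m else 0)‖) ≤ ε := by
  have hz : 0 < ((E : ℂ) + η * Complex.I).im := by rw [zim]; exact hη
  by_cases hxy : x = y
  · subst hxy
    simp only [if_true]
    filter_upwards [h4 _ hz K x (ε / 2) (by positivity),
      hO E η hE hη m hm (ε / 2) (by positivity), adm_mem] with n h1 h2 hadm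
    rw [← hM n hadm.1 hadm.2 K x.1 x.2 (fun G e =>
        min 1 ‖hc G ((E : ℂ) + η * Complex.I) e - m‖)] at h2
    refine le_trans ?_ (le_trans (add_le_add h1 h2) (by linarith))
    rw [← avg_add]
    apply avg_mono
    intro ω _
    refine le_trans (min_le_min_left _ ?_) (min_one_add _ _ (norm_nonneg _)
      (norm_nonneg _))
    exact norm_sub_le_norm_sub_add_norm_sub _ _ _
  · filter_upwards [h3 _ hz K x y hxy ε hε] with n hn
    simpa only [hxy, if_false, sub_zero] using hn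

/-- Deterministic comparison used for both versions. -/
theorem prob_le {n d K : ℕ} {z w m : ℂ} {ε δ : ℝ} (hδ : 0 < δ) (hz : 0 < z.im)
    (hunif : ∀ R : Matrix (Fin K × Fin d) (Fin K × Fin d) ℂ,
      (∀ x y, ‖R x y - (if x = y then m else 0)‖ ≤ δ) →
      IsUnit (WWm R z).det ∧ ∀ x y, ‖QofR R z x y - Kz d w m K x y‖ ≤ ε) :
    prob (WW n d K) (fun ω => ∃ x y, ε < ‖starMat ω z x y - Kz d w m K x y‖) ≤
      prob (WW n d K) (fun ω => ω ∉ ZZs n d K) +
      ∑ p : (Fin K × Fin d) × (Fin K × Fin d), (min 1 δ)⁻¹ * avg (WW n d K)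
        (fun ω => min 1 ‖leadMat ω z p.1 p.2 - (if p.1 = p.2 then m else 0)‖) := by
  have hδ1 : 0 < min 1 δ := lt_min one_pos hδ
  unfold prob
  simp only [← avg_const_mul]
  rw [← avg_sum, ← avg_add]
  apply avg_mono
  intro ω _
  have hs0 : ∀ p : (Fin K × Fin d) × (Fin K × Fin d), 0 ≤ (min 1 δ)⁻¹ *
      min 1 ‖leadMat ω z p.1 p.2 - (if p.1 = p.2 then m else 0)‖ := fun p =>
    mul_nonneg (inv_nonneg.2 hδ1.le) (le_min zero_le_one (norm_nonneg _))
  have hs : 0 ≤ ∑ p : (Fin K × Fin d) × (Fin K × Fin d), (min 1 δ)⁻¹ *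
      min 1 ‖leadMat ω z p.1 p.2 - (if p.1 = p.2 then m else 0)‖ :=
    Finset.sum_nonneg fun p _ => hs0 p
  by_cases hω : ω ∈ ZZs n d K
  · by_cases hall : ∀ x y, ‖leadMat ω z x y - (if x = y then m else 0)‖ ≤ δ
    · obtain ⟨hU, hQ⟩ := hunif _ hall
      have hstar := starMat_eq hω z (isUnit_cut ω.1 (centres ω) hz.ne') hU
      have : ¬ ∃ x y, ε < ‖starMat ω z x y - Kz d w m K x y‖ := by
        rintro ⟨x, y, hxy⟩
        rw [hstar] at hxy
        exact absurd (hQ x y) (not_le.2 hxy)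
      rw [if_neg this, if_neg (not_not.2 hω), zero_add]
      exact hs
    · push Not at hall
      obtain ⟨x, y, hxy⟩ := hall
      have h1 : (1 : ℝ) ≤ ∑ p : (Fin K × Fin d) × (Fin K × Fin d), (min 1 δ)⁻¹ *
          min 1 ‖leadMat ω z p.1 p.2 - (if p.1 = p.2 then m else 0)‖ := by
        refine le_trans ?_ (Finset.single_le_sum (fun p _ => hs0 p) (Finset.mem_univ (x, y)))
        rw [inv_mul_eq_div, le_div_iff₀ hδ1, one_mul]
        exact min_le_min_left _ hxy.le
      exact le_trans (ite_le_one' _) (le_trans h1 (le_add_of_nonneg_left (ite_nonneg' _)))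
  · rw [if_pos hω]
    exact le_trans (ite_le_one' _) (le_add_of_nonneg_right hs)

theorem specLL_of {d : ℕ} (hd : 3 ≤ d) (hZW : SpecZW d) (h : LeadLL d) : SpecLL d := by
  intro a b hab ha hb K ε hε
  have hB : BulkI d a b := ⟨hab, ha, hb⟩
  -- the compact set of tree points
  let P : Set (ℂ × ℂ) := (fun E : ℝ => ((E : ℂ), mE d E)) '' Set.Icc a b
  have hPc : IsCompact P := isCompact_Icc.image
    ((Complex.continuous_ofReal).prodMk (continuous_mE d))
  have hP1 : ∀ p ∈ P, ((d : ℂ) - 1) * p.2 ^ 2 + p.1 * p.2 + 1 = 0 := by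
    rintro _ ⟨E, hE, rfl⟩
    exact mE_eq hd (bulk_abs_lt hB hE)
  have hP2 : ∀ p ∈ P, p.1 + d * p.2 ≠ 0 := by
    rintro _ ⟨E, hE, rfl⟩
    exact Edm_ne hd (bulk_abs_lt hB hE)
  obtain ⟨δ, hδ, hunif⟩ := QofR_unif (K := K) P hPc hP1 hP2 ε hε
  have hδ1 : 0 < min 1 δ := lt_min one_pos hδ
  set N : ℝ := (Fintype.card ((Fin K × Fin d) × (Fin K × Fin d)) : ℝ) with hN
  have hN0 : 0 ≤ N := Nat.cast_nonneg _
  set ε' : ℝ := ε / 2 * min 1 δ / (N + 1) with hε'
  have hε'0 : 0 < ε' := by positivity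
  choose L₀ hL₀ using fun p : (Fin K × Fin d) × (Fin K × Fin d) => h a b hB K p.1 p.2 ε' hε'0
  obtain ⟨C, hC⟩ := hZW K
  refine ⟨max 1 (∑ p, |L₀ p|), fun L hL => ?_⟩
  have hL1 : 1 ≤ L := le_trans (le_max_left _ _) hL
  have hL2 : ∀ p, L₀ p ≤ L := fun p => by
    refine le_trans (le_abs_self _) (le_trans ?_ (le_trans (le_max_right _ _) hL))
    exact Finset.single_le_sum (f := fun p => |L₀ p|) (fun q _ => abs_nonneg _)
      (Finset.mem_univ p)
  have hlarge : ∀ᶠ n : ℕ in admissible d, L / n ≤ δ ∧ (b - a) * (|C| / n) ≤ ε / 2 := by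
    have h1 : Tendsto (fun n : ℕ => L / (n : ℝ)) (admissible d) (𝓝 0) :=
      (tendsto_const_div_atTop_nhds_zero_nat L).mono_left inf_le_left
    have h2 : Tendsto (fun n : ℕ => (b - a) * (|C| / (n : ℝ))) (admissible d) (𝓝 0) := by
      have := ((tendsto_const_div_atTop_nhds_zero_nat |C|).const_mul (b - a)).mono_left
        (inf_le_left : admissible d ≤ atTop)
      rw [mul_zero] at this
      exact this
    exact (h1.eventually (eventually_le_nhds hδ)).and
      (h2.eventually (eventually_le_nhds (by positivity)))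
  have hall : ∀ᶠ n in admissible d, ∀ p : (Fin K × Fin d) × (Fin K × Fin d),
      ∫ E in a..b, avg (WW n d K)
        (fun ω => min 1 ‖leadMat ω ((E : ℂ) + ((L / n : ℝ) : ℂ) * Complex.I) p.1 p.2 -
          (if p.1 = p.2 then mE d E else 0)‖) ≤ ε' := by
    rw [Filter.eventually_all]
    intro p
    exact hL₀ p L (hL2 p)
  filter_upwards [hlarge, hall, adm_pos, adm_mem] with n hn1 hn2 hn hadm
  have hnR : (0 : ℝ) < n := by exact_mod_cast hn
  have hη : 0 < L / (n : ℝ) := by positivity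
  let F : (Fin K × Fin d) × (Fin K × Fin d) → ℝ → ℝ := fun p E =>
    avg (WW n d K) (fun ω => min 1 ‖leadMat ω ((E : ℂ) + ((L / n : ℝ) : ℂ) * Complex.I) p.1 p.2 -
      (if p.1 = p.2 then mE d E else 0)‖)
  have hcont : ∀ p : (Fin K × Fin d) × (Fin K × Fin d), Continuous (F p) := by
    intro p
    apply continuous_avg
    intro ω
    apply continuous_const.min
    apply Continuous.norm
    apply (continuous_leadMat ω hη.ne' p.1 p.2).sub
    by_cases hp : p.1 = p.2
    · simp only [hp, if_true]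
      exact continuous_mE d
    · simp only [hp, if_false]
      exact continuous_const
  have hF0 : ∀ p E, 0 ≤ F p E := fun p E =>
    avg_nonneg fun ω _ => le_min zero_le_one (norm_nonneg _)
  have hn2' : ∀ p, ∫ E in a..b, F p E ≤ ε' := hn2
  have hgc : Continuous (fun E : ℝ => prob (WW n d K) (fun ω => ω ∉ ZZs n d K) +
      ∑ p, (min 1 δ)⁻¹ * F p E) :=
    continuous_const.add (continuous_finsetSum _ fun p _ => continuous_const.mul (hcont p))
  have hstep1 : ∫ E in a..b, prob (WW n d K) (fun ω => ∃ x y,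
      ε < ‖starMat ω ((E : ℂ) + ((L / n : ℝ) : ℂ) * Complex.I) x y - KE d E K x y‖)
      ≤ ∫ E in a..b, (prob (WW n d K) (fun ω => ω ∉ ZZs n d K) +
        ∑ p, (min 1 δ)⁻¹ * F p E) := by
    apply int_le hab.le (hgc.intervalIntegrable _ _)
    · intro E _
      apply add_nonneg (prob_nonneg _ _)
      apply Finset.sum_nonneg
      intro p _
      exact mul_nonneg (inv_nonneg.2 hδ1.le) (hF0 p E)
    · intro E hE
      have hz : 0 < ((E : ℂ) + ((L / n : ℝ) : ℂ) * Complex.I).im := by rw [zim]; exact hη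
      simp only [KE_eq_Kz]
      apply prob_le hδ hz
      intro R hR
      apply hunif ((E : ℂ), mE d E) ⟨E, hE, rfl⟩ R _ hR
      rw [add_sub_cancel_left, norm_mul, Complex.norm_I, mul_one, Complex.norm_real,
        Real.norm_eq_abs, abs_of_pos hη]
      exact hn1.1
  refine le_trans hstep1 ?_
  rw [int_affine a b _ _ F hcont]
  have hp1 : prob (WW n d K) (fun ω => ω ∉ ZZs n d K) ≤ |C| / n := by
    refine le_trans (hC n hadm.1 hadm.2) ?_
    gcongr
    exact le_abs_self C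
  have hba : 0 ≤ b - a := by linarith
  calc (b - a) * prob (WW n d K) (fun ω => ω ∉ ZZs n d K) +
        ∑ p, (min 1 δ)⁻¹ * ∫ E in a..b, F p E
      ≤ (b - a) * (|C| / n) +
        ∑ p : (Fin K × Fin d) × (Fin K × Fin d), (min 1 δ)⁻¹ * ε' := by
        apply add_le_add (mul_le_mul_of_nonneg_left hp1 hba)
        apply Finset.sum_le_sum
        intro p _
        exact mul_le_mul_of_nonneg_left (hn2' p) (inv_nonneg.2 hδ1.le)
    _ ≤ ε / 2 + ε / 2 := by
        gcongr
        · exact hn1.2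
        · rw [Finset.sum_const, Finset.card_univ, nsmul_eq_mul, ← hN, hε']
          have : N * ((min 1 δ)⁻¹ * (ε / 2 * min 1 δ / (N + 1))) = ε / 2 * (N / (N + 1)) := by
            field_simp
          rw [this]
          have h1 : N / (N + 1) ≤ 1 := by
            rw [div_le_one (by positivity)]
            linarith
          have h2 : 0 ≤ ε / 2 := by positivity
          nlinarith
    _ = ε := by ring

/-- The fixed spectral parameter version. -/
theorem specFix_aux {d : ℕ} {P : ℝ → Prop} (hd : 3 ≤ d) (hZW : SpecZW d) (h3 : OffFix d)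
    (h4 : StabFix d) (hO : OutFix d P) (hM : Marg d) (E η : ℝ) (hE : P E) (hη : 0 < η) (m : ℂ)
    (hm : IsTreeStieltjes d ((E : ℂ) + η * Complex.I) m) (K : ℕ) (ε : ℝ) (hε : 0 < ε) :
    ∀ᶠ n in admissible d,
      prob (WW n d K) (fun ω => ∃ x y, ε < ‖starMat ω ((E : ℂ) + η * Complex.I) x y -
        Kz d ((E : ℂ) + η * Complex.I) m K x y‖) ≤ ε := by
  have hz : 0 < ((E : ℂ) + η * Complex.I).im := by rw [zim]; exact hη
  have hd0 : (0 : ℝ) < d := by
    have : (3 : ℝ) ≤ d := by exact_mod_cast hd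
    linarith
  have hne : ((E : ℂ) + η * Complex.I) + d * m ≠ 0 := by
    intro h
    have h1 := congrArg Complex.im h
    rw [Complex.add_im, zim] at h1
    have h2 : ((d : ℂ) * m).im = d * m.im := by simp [Complex.mul_im]
    rw [h2, Complex.zero_im] at h1
    have h5 := mul_pos hd0 hm.2
    linarith
  obtain ⟨δ, hδ, hunif⟩ := QofR_unif (K := K) {(((E : ℂ) + η * Complex.I), m)}
    isCompact_singleton
    (by rintro _ rfl; exact hm.1) (by rintro _ rfl; exact hne) ε hε
  have hδ1 : 0 < min 1 δ := lt_min one_pos hδ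
  set N : ℝ := (Fintype.card ((Fin K × Fin d) × (Fin K × Fin d)) : ℝ) with hN
  have hN0 : 0 ≤ N := Nat.cast_nonneg _
  set ε' : ℝ := ε / 2 * min 1 δ / (N + 1) with hε'
  have hε'0 : 0 < ε' := by positivity
  obtain ⟨C, hC⟩ := hZW K
  have hall : ∀ᶠ n in admissible d, ∀ p : (Fin K × Fin d) × (Fin K × Fin d),
      avg (WW n d K) (fun ω => min 1 ‖leadMat ω ((E : ℂ) + η * Complex.I) p.1 p.2 -
        (if p.1 = p.2 then m else 0)‖) ≤ ε' := by
    rw [Filter.eventually_all]
    intro p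
    exact leadFix h3 h4 hO hM E η hE hη m hm K p.1 p.2 ε' hε'0
  have hlarge : ∀ᶠ n : ℕ in admissible d, |C| / n ≤ ε / 2 := by
    have h1 : Tendsto (fun n : ℕ => |C| / (n : ℝ)) (admissible d) (𝓝 0) :=
      (tendsto_const_div_atTop_nhds_zero_nat _).mono_left inf_le_left
    exact h1.eventually (eventually_le_nhds (by positivity))
  filter_upwards [hall, hlarge, adm_pos, adm_mem] with n hn2 hn1 hn hadm
  refine le_trans (prob_le (m := m) (w := (E : ℂ) + η * Complex.I) hδ hz (fun R hR =>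
    hunif _ rfl R _ hR (by rw [sub_self, norm_zero]; exact hδ.le))) ?_
  have hp1 : prob (WW n d K) (fun ω => ω ∉ ZZs n d K) ≤ |C| / n := by
    refine le_trans (hC n hadm.1 hadm.2) ?_
    gcongr
    exact le_abs_self C
  refine le_trans (add_le_add (le_trans hp1 hn1) (Finset.sum_le_sum fun p _ =>
    mul_le_mul_of_nonneg_left (hn2 p) (inv_nonneg.2 hδ1.le))) ?_
  rw [Finset.sum_const, Finset.card_univ, nsmul_eq_mul, ← hN, hε']
  have : N * ((min 1 δ)⁻¹ * (ε / 2 * min 1 δ / (N + 1))) = ε / 2 * (N / (N + 1)) := by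
    field_simp
  rw [this]
  have h1 : N / (N + 1) ≤ 1 := by
    rw [div_le_one (by positivity)]
    linarith
  have h2 : 0 ≤ ε / 2 := by positivity
  nlinarith

theorem specFix_of {d : ℕ} (hd : 3 ≤ d) (hZW : SpecZW d) (h3 : OffFix d)
    (h4 : StabFix d) (hO : OutFix d (fun E => |E| < 2 * Real.sqrt ((d : ℝ) - 1)))
    (hM : Marg d) : SpecFix d :=
  fun E η hE hη m hm K ε hε => specFix_aux hd hZW h3 h4 hO hM E η hE hη m hm K ε hε

/-- `SpecLL` from the soft forms of C3, C4 and the cavity law. -/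
theorem specLL_of' {d : ℕ} (hd : 3 ≤ d) (hZW : SpecZW d) (h3 : OffLL d) (h4 : StabLL d)
    (hO : OutLL d) (hM : Marg d) : SpecLL d :=
  specLL_of hd hZW (leadLL h3 h4 hO hM)

end H520

end

end Vale.Agent.P156
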