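import Vale.Agent.P156.H520.FE6c

/-! FE5: continuity of `VV` in the scale. -/

open MeasureTheory Filter Topology Matrix Finset

namespace Vale.Agent.P156

noncomputable section

namespace H520

open FE
open scoped Matrix.Norms.Frobenius

variable {n d : ℕ}

theorem res_ident (G : SimpleGraph (Fin n)) {z z' : ℂ} (hz : z.im ≠ 0) (hz' : z'.im ≠ 0) :
    resD (adj G) ∅ z - resD (adj G) ∅ z' =
      (z - z') • (resD (adj G) ∅ z * resD (adj G) ∅ z') := by
  have h1 := isUnit_cut G ∅ hz
  have h2 := isUnit_cut G ∅ hz'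
  have h3 : cutMat (adj G) ∅ z' - cutMat (adj G) ∅ z =
      (z - z') • (1 : Matrix (Fin n) (Fin n) ℂ) := by
    ext x y
    rw [Matrix.sub_apply, Matrix.smul_apply, Matrix.one_apply]
    unfold cutMat
    simp only [Finset.notMem_empty, or_self, if_false]
    by_cases hxy : x = y
    · simp [hxy]
    · simp [hxy]
  unfold resD
  calc (cutMat (adj G) ∅ z)⁻¹ - (cutMat (adj G) ∅ z')⁻¹
      = (cutMat (adj G) ∅ z)⁻¹ * (cutMat (adj G) ∅ z' - cutMat (adj G) ∅ z) *
        (cutMat (adj G) ∅ z')⁻¹ := by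
        rw [Matrix.mul_sub, Matrix.nonsing_inv_mul _ h1, Matrix.sub_mul, Matrix.one_mul,
          Matrix.mul_assoc, Matrix.mul_nonsing_inv _ h2, Matrix.mul_one]
    _ = _ := by
        rw [h3, Matrix.mul_smul, Matrix.mul_one, Matrix.smul_mul]

theorem pk_mono {η η' x : ℝ} (h0 : 0 < η') (h1 : η' ≤ η) :
    H801.pk η' x ≤ η / η' * H801.pk η x ∧ H801.pk η x ≤ η / η' * H801.pk η' x := by
  have hη : 0 < η := lt_of_lt_of_le h0 h1
  unfold H801.pk
  constructor
  · rw [div_mul_div_comm, div_le_div_iff₀ (by positivity) (by positivity)]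
    have e1 : η * η * (x ^ 2 + η' ^ 2) - η' * (η' * (x ^ 2 + η ^ 2)) =
        (η ^ 2 - η' ^ 2) * x ^ 2 := by ring
    have e2 : 0 ≤ (η ^ 2 - η' ^ 2) * x ^ 2 := by
      have : η' ^ 2 ≤ η ^ 2 := pow_le_pow_left₀ h0.le h1 2
      exact mul_nonneg (by linarith) (sq_nonneg _)
    linarith
  · rw [div_mul_div_comm, div_le_div_iff₀ (by positivity) (by positivity)]
    have e1 : η * η' * (x ^ 2 + η ^ 2) - η * (η' * (x ^ 2 + η' ^ 2)) =
        η * η' * (η ^ 2 - η' ^ 2) := by ring
    have e2 : 0 ≤ η * η' * (η ^ 2 - η' ^ 2) := by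
      have : η' ^ 2 ≤ η ^ 2 := pow_le_pow_left₀ h0.le h1 2
      exact mul_nonneg (by positivity) (by linarith)
    linarith

theorem im_mono (G : SimpleGraph (Fin n)) (E : ℝ) {η η' : ℝ} (h0 : 0 < η') (h1 : η' ≤ η)
    (x : Fin n) :
    (resD (adj G) ∅ (zz E η') x x).im ≤ η / η' * (resD (adj G) ∅ (zz E η) x x).im ∧
    (resD (adj G) ∅ (zz E η) x x).im ≤ η / η' * (resD (adj G) ∅ (zz E η') x x).im := by
  have hη : 0 < η := lt_of_lt_of_le h0 h1
  unfold zz
  rw [H801.im_resD_diag (adj_isHermitian G) E h0 (by simp),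
    H801.im_resD_diag (adj_isHermitian G) E hη (by simp), Finset.mul_sum, Finset.mul_sum]
  constructor
  · refine Finset.sum_le_sum fun i _ => ?_
    have h := (pk_mono (x := (H801.zo_herm (adj_isHermitian G) ∅).eigenvalues i - E) h0 h1).1
    calc _ ≤ (H801.ev (H801.zo_herm (adj_isHermitian G) ∅) i x) ^ 2 * (η / η' *
          H801.pk η ((H801.zo_herm (adj_isHermitian G) ∅).eigenvalues i - E)) :=
          mul_le_mul_of_nonneg_left h (sq_nonneg _)
      _ = _ := by ring
  · refine Finset.sum_le_sum fun i _ => ?_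
    have h := (pk_mono (x := (H801.zo_herm (adj_isHermitian G) ∅).eigenvalues i - E) h0 h1).2
    calc _ ≤ (H801.ev (H801.zo_herm (adj_isHermitian G) ∅) i x) ^ 2 * (η / η' *
          H801.pk η' ((H801.zo_herm (adj_isHermitian G) ∅).eigenvalues i - E)) :=
          mul_le_mul_of_nonneg_left h (sq_nonneg _)
      _ = _ := by ring

/-- Resolvent difference at two scales. -/
theorem res_diff (G : SimpleGraph (Fin n)) (E : ℝ) {η η' : ℝ} (h0 : 0 < η') (h1 : η' ≤ η)
    (x y : Fin n) {c2 : ℝ} (hx : (resD (adj G) ∅ (zz E η) x x).im ≤ c2)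
    (hy : (resD (adj G) ∅ (zz E η') y y).im ≤ c2) :
    ‖resD (adj G) ∅ (zz E η) x y - resD (adj G) ∅ (zz E η') x y‖ ≤ c2 * (η / η' - 1) := by
  have hη : 0 < η := lt_of_lt_of_le h0 h1
  have hz : (zz E η).im ≠ 0 := by rw [zz_im]; exact hη.ne'
  have hz' : (zz E η').im ≠ 0 := by rw [zz_im]; exact h0.ne'
  have hc2 : 0 ≤ c2 := le_trans (H801.im_resD_diag_nonneg (adj_isHermitian G) ∅ E hη x) hx
  have h2 := congrFun (congrFun (res_ident G hz hz') x) y
  rw [Matrix.sub_apply, Matrix.smul_apply, Matrix.mul_apply] at h2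
  rw [h2, norm_smul]
  have h3 : ‖zz E η - zz E η'‖ = η - η' := by
    have : zz E η - zz E η' = ((η - η' : ℝ) : ℂ) * Complex.I := by
      unfold zz
      push_cast
      ring
    rw [this, norm_mul, Complex.norm_I, mul_one, Complex.norm_real, Real.norm_eq_abs,
      abs_of_nonneg (by linarith)]
  rw [h3]
  have h4 : ‖∑ j, resD (adj G) ∅ (zz E η) x j * resD (adj G) ∅ (zz E η') j y‖ ≤ c2 / η' := by
    refine le_trans (norm_sum_le _ _) ?_
    have h5 : (∑ j, ‖resD (adj G) ∅ (zz E η) x j * resD (adj G) ∅ (zz E η') j y‖) ^ 2 ≤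
        (c2 / η') ^ 2 := by
      calc (∑ j, ‖resD (adj G) ∅ (zz E η) x j * resD (adj G) ∅ (zz E η') j y‖) ^ 2
          = (∑ j, ‖resD (adj G) ∅ (zz E η) x j‖ * ‖resD (adj G) ∅ (zz E η') j y‖) ^ 2 := by
            simp only [norm_mul]
        _ ≤ (∑ j, ‖resD (adj G) ∅ (zz E η) x j‖ ^ 2) *
            (∑ j, ‖resD (adj G) ∅ (zz E η') j y‖ ^ 2) := Finset.sum_mul_sq_le_sq_mul_sq _ _ _
        _ = (∑ j, ‖resD (adj G) ∅ (zz E η) x j‖ ^ 2) *
            (∑ j, ‖resD (adj G) ∅ (zz E η') y j‖ ^ 2) := by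
            congr 1
            refine Finset.sum_congr rfl fun j _ => ?_
            have h := congrFun (congrFun (res_symm G ∅ (zz E η')) j) y
            rw [Matrix.transpose_apply] at h
            rw [h]
        _ = ((resD (adj G) ∅ (zz E η) x x).im / η) *
            ((resD (adj G) ∅ (zz E η') y y).im / η') := by
            congr 1
            · exact H801.ward_resD (adj_isHermitian G) E hη (by simp)
            · exact H801.ward_resD (adj_isHermitian G) E h0 (by simp)
        _ ≤ (c2 / η') * (c2 / η') := by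
            refine mul_le_mul ?_ ?_ ?_ (by positivity)
            · calc (resD (adj G) ∅ (zz E η) x x).im / η ≤ c2 / η := by gcongr
                _ ≤ c2 / η' := div_le_div_of_nonneg_left hc2 h0 h1
            · gcongr
            · exact div_nonneg (H801.im_resD_diag_nonneg (adj_isHermitian G) ∅ E h0 y) h0.le
        _ = (c2 / η') ^ 2 := by ring
    exact (pow_le_pow_iff_left₀ (Finset.sum_nonneg fun _ _ => norm_nonneg _) (by positivity)
      two_ne_zero).1 h5
  calc (η - η') * ‖∑ j, resD (adj G) ∅ (zz E η) x j * resD (adj G) ∅ (zz E η') j y‖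
      ≤ (η - η') * (c2 / η') := mul_le_mul_of_nonneg_left h4 (by linarith)
    _ = c2 * (η / η' - 1) := by
        field_simp

/-- The deviation matrix of one star. -/
def XX1 (G : SimpleGraph (Fin n)) (z : ℂ) (t : Fin n × (Fin d → Fin n)) :
    Matrix (Option (Fin d)) (Option (Fin d)) ℂ :=
  fun o o' => resD (adj G) ∅ z (B.pos t o) (B.pos t o') - kz d z o o'

theorem S1_eq (G : SimpleGraph (Fin n)) (z : ℂ) (t : Fin n × (Fin d → Fin n)) :
    S1 G z t = ‖XX1 G z t‖ ^ 2 := by
  rw [fro_sq]
  rfl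

theorem min_sq_sub {x y : ℝ} (hx : 0 ≤ x) (hy : 0 ≤ y) :
    |min 1 (x ^ 2) - min 1 (y ^ 2)| ≤ 2 * |x - y| ∧
    (1 < x → 1 < y → |min 1 (x ^ 2) - min 1 (y ^ 2)| = 0) := by
  constructor
  · wlog hxy : y ≤ x generalizing x y
    · have := this hy hx (le_of_not_ge hxy)
      rw [abs_sub_comm, abs_sub_comm x y]
      exact this
    · rw [abs_of_nonneg (sub_nonneg.2 (min_le_min le_rfl (pow_le_pow_left₀ hy hxy 2))),
        abs_of_nonneg (sub_nonneg.2 hxy)]
      rcases le_total 1 (y ^ 2) with h1 | h1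
      · rw [min_eq_left h1]
        have : min 1 (x ^ 2) ≤ 1 := min_le_left _ _
        linarith
      · rw [min_eq_right h1]
        have hy1 : y ≤ 1 := by nlinarith
        rcases le_total x 1 with h2 | h2
        · have : min 1 (x ^ 2) ≤ x ^ 2 := min_le_right _ _
          nlinarith
        · have : min 1 (x ^ 2) ≤ 1 := min_le_left _ _
          nlinarith
  · intro h1 h2
    rw [min_eq_left (by nlinarith), min_eq_left (by nlinarith), sub_self, abs_zero]

theorem kz_lip {a b c : ℝ} (hc : 0 < c) {z z' : ℂ} (hm : ‖mm d z‖ ≤ 1)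
    (hm' : ‖mm d z'‖ ≤ 1) (hcz : c ≤ ‖z + d * mm d z‖) (hcz' : c ≤ ‖z' + d * mm d z'‖)
    (hz : ‖z - z'‖ ≤ a) (hmm : ‖mm d z - mm d z'‖ ≤ b) (o o' : Option (Fin d)) :
    ‖kz d z o o' - kz d z' o o'‖ ≤ (a + d * b) / c ^ 2 + 2 * b / c := by
  have ha : 0 ≤ a := le_trans (norm_nonneg _) hz
  have hb : 0 ≤ b := le_trans (norm_nonneg _) hmm
  have hne : z + d * mm d z ≠ 0 := by
    intro h
    rw [h, norm_zero] at hcz
    linarith
  have hne' : z' + d * mm d z' ≠ 0 := by
    intro h
    rw [h, norm_zero] at hcz'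
    linarith
  have h1 : ‖-1 / (z + d * mm d z) - -1 / (z' + d * mm d z')‖ ≤ (a + d * b) / c ^ 2 := by
    have e : -1 / (z + d * mm d z) - -1 / (z' + d * mm d z') =
        ((z - z') + d * (mm d z - mm d z')) / ((z + d * mm d z) * (z' + d * mm d z')) := by
      field_simp
      ring
    rw [e, norm_div, norm_mul]
    have h2 : ‖(z - z') + d * (mm d z - mm d z')‖ ≤ a + d * b := by
      refine le_trans (norm_add_le _ _) (add_le_add hz ?_)
      rw [norm_mul, Complex.norm_natCast]
      exact mul_le_mul_of_nonneg_left hmm (by positivity)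
    have h3 : c ^ 2 ≤ ‖z + d * mm d z‖ * ‖z' + d * mm d z'‖ := by
      rw [sq]
      exact mul_le_mul hcz hcz' hc.le (norm_nonneg _)
    exact div_le_div₀ (by positivity) h2 (by positivity) h3
  have h2 : ∀ k : ℕ, k ≤ 2 → ‖(-(mm d z)) ^ k - (-(mm d z')) ^ k‖ ≤ 2 * b := by
    intro k hk
    interval_cases k
    · simp only [pow_zero, sub_self, norm_zero]
      positivity
    · rw [pow_one, pow_one, neg_sub_neg, norm_sub_rev]
      linarith
    · have e : (-(mm d z)) ^ 2 - (-(mm d z')) ^ 2 = (mm d z - mm d z') * (mm d z + mm d z') := by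
        ring
      rw [e, norm_mul]
      have h3 : ‖mm d z + mm d z'‖ ≤ 2 := by
        refine le_trans (norm_add_le _ _) ?_
        linarith
      calc ‖mm d z - mm d z'‖ * ‖mm d z + mm d z'‖ ≤ b * 2 :=
            mul_le_mul hmm h3 (norm_nonneg _) hb
        _ = 2 * b := by ring
  have hk : starDist o o' ≤ 2 := by
    unfold starDist
    split_ifs <;> omega
  unfold kz
  have e : -1 / (z + d * mm d z) * (-(mm d z)) ^ starDist o o' -
      -1 / (z' + d * mm d z') * (-(mm d z')) ^ starDist o o' =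
      (-1 / (z + d * mm d z) - -1 / (z' + d * mm d z')) * (-(mm d z)) ^ starDist o o' +
      -1 / (z' + d * mm d z') * ((-(mm d z)) ^ starDist o o' - (-(mm d z')) ^ starDist o o') := by
    ring
  rw [e]
  refine le_trans (norm_add_le _ _) ?_
  rw [norm_mul, norm_mul, norm_pow, norm_neg]
  refine add_le_add ?_ ?_
  · calc _ ≤ (a + d * b) / c ^ 2 * 1 :=
        mul_le_mul h1 (pow_le_one₀ (norm_nonneg _) hm) (pow_nonneg (norm_nonneg _) _)
          (by positivity)
      _ = _ := mul_one _
  · rw [norm_div, norm_neg, norm_one]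
    calc 1 / ‖z' + d * mm d z'‖ * ‖(-(mm d z)) ^ starDist o o' - (-(mm d z')) ^ starDist o o'‖
        ≤ 1 / c * (2 * b) :=
          mul_le_mul (one_div_le_one_div_of_le hc hcz') (h2 _ hk) (norm_nonneg _) (by positivity)
      _ = 2 * b / c := by ring

/-- **FE5** -/
theorem specVcont {d : ℕ} {a b : ℝ} (hd : 3 ≤ d) (hM : SpecM d a b) : SpecVcont d a b := by
  obtain ⟨c, hc, hc1, hm, hmL, _⟩ := hM
  set c2 : ℝ := 2 * (1 + 1 / c) with hc2
  set c3 : ℝ := (1 + d * c⁻¹) / c ^ 2 + 2 * c⁻¹ / c with hc3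
  set N : ℝ := Real.sqrt (Fintype.card (Option (Fin d)) * Fintype.card (Option (Fin d))) with hN
  have hN0 : 0 ≤ N := Real.sqrt_nonneg _
  have hc20 : 0 < c2 := by positivity
  have hc30 : 0 ≤ c3 := by positivity
  refine ⟨2 * (N * (c2 + c3)), ?_⟩
  intro n G hG E hE η η' h0' h1 h2 h3
  have h0 : 0 < η := lt_of_lt_of_le h0' h1
  have h3' : η' ≤ 1 := le_trans h1 h3
  have hr : 0 ≤ η / η' - 1 := by
    rw [sub_nonneg, one_le_div h0']
    exact h1
  obtain ⟨him, hm1, _, _, _⟩ := hm E hE η h0 h3
  obtain ⟨him', hm1', _, _, _⟩ := hm E hE η' h0' h3'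
  have hd1 : (1 : ℝ) ≤ d := by exact_mod_cast (by omega : 1 ≤ d)
  have hlow : ∀ η : ℝ, 0 < η → c ≤ (mm d (zz E η)).im → c ≤ ‖zz E η + d * mm d (zz E η)‖ := by
    intro η h0 him
    refine le_trans ?_ (Complex.abs_im_le_norm _)
    have h2 : (zz E η + d * mm d (zz E η)).im = η + d * (mm d (zz E η)).im := by
      rw [Complex.add_im, zz_im, Complex.mul_im]
      simp
    rw [h2]
    refine le_trans ?_ (le_abs_self _)
    nlinarith
  have hcz := hlow η h0 him
  have hcz' := hlow η' h0' him'
  have hzd : ‖zz E η - zz E η'‖ = η - η' := by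
    have : zz E η - zz E η' = ((η - η' : ℝ) : ℂ) * Complex.I := by
      unfold zz
      push_cast
      ring
    rw [this, norm_mul, Complex.norm_I, mul_one, Complex.norm_real, Real.norm_eq_abs,
      abs_of_nonneg (by linarith)]
  have hmd : ‖mm d (zz E η) - mm d (zz E η')‖ ≤ c⁻¹ * (η - η') := by
    have := hmL E hE η η' h0 h3 h0' h3'
    rwa [abs_of_nonneg (by linarith : 0 ≤ η - η')] at this
  have hkz : ∀ o o' : Option (Fin d), ‖kz d (zz E η) o o' - kz d (zz E η') o o'‖ ≤
      c3 * (η / η' - 1) := by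
    intro o o'
    have h4 := kz_lip hc hm1 hm1' hcz hcz' hzd.le hmd o o'
    have h5 : η - η' ≤ η / η' - 1 := by
      have : η - η' = η' * (η / η' - 1) := by field_simp
      rw [this]
      calc η' * (η / η' - 1) ≤ 1 * (η / η' - 1) := mul_le_mul_of_nonneg_right h3' hr
        _ = _ := one_mul _
    have h6 : ((η - η') + d * (c⁻¹ * (η - η'))) / c ^ 2 + 2 * (c⁻¹ * (η - η')) / c =
        c3 * (η - η') := by
      rw [hc3]
      ring
    rw [h6] at h4
    exact le_trans h4 (mul_le_mul_of_nonneg_left h5 hc30)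
  have hpt : ∀ t : Fin n × (Fin d → Fin n), |dev (one G t) (zz E η) - dev (one G t) (zz E η')| ≤
      2 * (N * (c2 + c3)) * (η / η' - 1) := by
    intro t
    rw [dev_one, dev_one, S1_eq, S1_eq]
    obtain ⟨hA, hB⟩ := min_sq_sub (norm_nonneg (XX1 G (zz E η) t))
      (norm_nonneg (XX1 G (zz E η') t))
    rcases lt_or_ge 1 ‖XX1 G (zz E η) t‖ with hx | hx
    · rcases lt_or_ge 1 ‖XX1 G (zz E η') t‖ with hy | hy
      · rw [hB hx hy]
        positivity
      · -- near at η'
        refine le_trans hA ?_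
        have hS : S1 G (zz E η') t ≤ 1 := by
          rw [S1_eq]
          have := norm_nonneg (XX1 G (zz E η') t)
          nlinarith
        have hI' : ∀ o : Option (Fin d),
            (resD (adj G) ∅ (zz E η') (B.pos t o) (B.pos t o)).im ≤ 1 + 1 / c := by
          intro o
          refine le_trans (le_trans (le_abs_self _) (Complex.abs_im_le_norm _)) ?_
          have h3 := S1_entry hS o o
          have h4 := kz_norm hc hm1' hcz' o o
          calc ‖resD (adj G) ∅ (zz E η') (B.pos t o) (B.pos t o)‖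
              = ‖(resD (adj G) ∅ (zz E η') (B.pos t o) (B.pos t o) - kz d (zz E η') o o) +
                kz d (zz E η') o o‖ := by rw [sub_add_cancel]
            _ ≤ _ := norm_add_le _ _
            _ ≤ 1 + 1 / c := add_le_add h3 h4
        have hI : ∀ o : Option (Fin d),
            (resD (adj G) ∅ (zz E η) (B.pos t o) (B.pos t o)).im ≤ c2 := by
          intro o
          refine le_trans (im_mono G E h0' h1 _).2 ?_
          have h5 : η / η' ≤ 2 := by rw [div_le_iff₀ h0']; exact h2
          have h6 := H801.im_resD_diag_nonneg (adj_isHermitian G) ∅ E h0' (B.pos t o)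
          calc η / η' * (resD (adj G) ∅ (zz E η') (B.pos t o) (B.pos t o)).im
              ≤ 2 * (1 + 1 / c) := mul_le_mul h5 (hI' o) h6 (by norm_num)
            _ = c2 := rfl
        have hD : ‖XX1 G (zz E η) t - XX1 G (zz E η') t‖ ≤ N * ((c2 + c3) * (η / η' - 1)) := by
          refine fro_le_of_entry _ (by positivity) fun o o' => ?_
          have e : (XX1 G (zz E η) t - XX1 G (zz E η') t) o o' =
              (resD (adj G) ∅ (zz E η) (B.pos t o) (B.pos t o') -
                resD (adj G) ∅ (zz E η') (B.pos t o) (B.pos t o')) -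
              (kz d (zz E η) o o' - kz d (zz E η') o o') := by
            rw [Matrix.sub_apply]
            unfold XX1
            ring
          rw [e]
          refine le_trans (norm_sub_le _ _) ?_
          have h7 := res_diff G E h0' h1 (B.pos t o) (B.pos t o') (hI o)
            (le_trans (hI' o') (by rw [hc2]; have : 0 < 1 + 1 / c := by positivity
                                   linarith))
          have h8 := hkz o o'
          linarith
        have h9 := abs_norm_sub_norm_le (XX1 G (zz E η) t) (XX1 G (zz E η') t)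
        calc 2 * |‖XX1 G (zz E η) t‖ - ‖XX1 G (zz E η') t‖|
            ≤ 2 * (N * ((c2 + c3) * (η / η' - 1))) := by linarith
          _ = _ := by ring
    · -- near at η
      refine le_trans hA ?_
      have hS : S1 G (zz E η) t ≤ 1 := by
        rw [S1_eq]
        have := norm_nonneg (XX1 G (zz E η) t)
        nlinarith
      have hI : ∀ o : Option (Fin d),
          (resD (adj G) ∅ (zz E η) (B.pos t o) (B.pos t o)).im ≤ 1 + 1 / c := by
        intro o
        refine le_trans (le_trans (le_abs_self _) (Complex.abs_im_le_norm _)) ?_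
        have h3 := S1_entry hS o o
        have h4 := kz_norm hc hm1 hcz o o
        calc ‖resD (adj G) ∅ (zz E η) (B.pos t o) (B.pos t o)‖
            = ‖(resD (adj G) ∅ (zz E η) (B.pos t o) (B.pos t o) - kz d (zz E η) o o) +
              kz d (zz E η) o o‖ := by rw [sub_add_cancel]
          _ ≤ _ := norm_add_le _ _
          _ ≤ 1 + 1 / c := add_le_add h3 h4
      have hI' : ∀ o : Option (Fin d),
          (resD (adj G) ∅ (zz E η') (B.pos t o) (B.pos t o)).im ≤ c2 := by
        intro o
        refine le_trans (im_mono G E h0' h1 _).1 ?_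
        have h5 : η / η' ≤ 2 := by rw [div_le_iff₀ h0']; exact h2
        have h6 := H801.im_resD_diag_nonneg (adj_isHermitian G) ∅ E h0 (B.pos t o)
        calc η / η' * (resD (adj G) ∅ (zz E η) (B.pos t o) (B.pos t o)).im
            ≤ 2 * (1 + 1 / c) := mul_le_mul h5 (hI o) h6 (by norm_num)
          _ = c2 := rfl
      have hD : ‖XX1 G (zz E η) t - XX1 G (zz E η') t‖ ≤ N * ((c2 + c3) * (η / η' - 1)) := by
        refine fro_le_of_entry _ (by positivity) fun o o' => ?_
        have e : (XX1 G (zz E η) t - XX1 G (zz E η') t) o o' =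
            (resD (adj G) ∅ (zz E η) (B.pos t o) (B.pos t o') -
              resD (adj G) ∅ (zz E η') (B.pos t o) (B.pos t o')) -
            (kz d (zz E η) o o' - kz d (zz E η') o o') := by
          rw [Matrix.sub_apply]
          unfold XX1
          ring
        rw [e]
        refine le_trans (norm_sub_le _ _) ?_
        have h7 := res_diff G E h0' h1 (B.pos t o) (B.pos t o')
          (le_trans (hI o) (by rw [hc2]; have : 0 < 1 + 1 / c := by positivity
                               linarith)) (hI' o')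
        have h8 := hkz o o'
        linarith
      have h9 := abs_norm_sub_norm_le (XX1 G (zz E η) t) (XX1 G (zz E η') t)
      calc 2 * |‖XX1 G (zz E η) t‖ - ‖XX1 G (zz E η') t‖|
          ≤ 2 * (N * ((c2 + c3) * (η / η' - 1))) := by linarith
        _ = _ := by ring
  unfold VV
  rw [← H490.avg_sub]
  refine le_trans (H490.abs_avg_le _ _) ?_
  exact H490.avg_le_of_le (by positivity) fun t _ => hpt t

end H520

end

end Vale.Agent.P156
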