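import Vale.Agent.P156.H520.FE6b

/-! FE6, part c: `SpecRV`. -/

open MeasureTheory Filter Topology Matrix Finset
open Vale.Agent.P156.H490 (avg_sum avg_mul_left avg_congr avg_add avg_const avg_le_of_le)

namespace Vale.Agent.P156

noncomputable section

namespace H520

open FE

variable {n d : ℕ}

/-- Tree resolvent inside a star. -/
def kz (d : ℕ) (z : ℂ) (o o' : Option (Fin d)) : ℂ :=
  (-1 / (z + d * mm d z)) * (-(mm d z)) ^ starDist o o'

/-- Squared deviation of one star. -/
def S1 (G : SimpleGraph (Fin n)) (z : ℂ) (t : Fin n × (Fin d → Fin n)) : ℝ :=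
  ∑ o : Option (Fin d), ∑ o' : Option (Fin d),
    ‖resD (adj G) ∅ z (B.pos t o) (B.pos t o') - kz d z o o'‖ ^ 2

theorem S1_nonneg (G : SimpleGraph (Fin n)) (z : ℂ) (t : Fin n × (Fin d → Fin n)) :
    0 ≤ S1 G z t := Finset.sum_nonneg fun _ _ => Finset.sum_nonneg fun _ _ => sq_nonneg _

theorem Gam_nonneg (G : SimpleGraph (Fin n)) (z : ℂ) (s t : Fin n × (Fin d → Fin n)) :
    0 ≤ Gam G z s t := Finset.sum_nonneg fun _ _ => Finset.sum_nonneg fun _ _ => sq_nonneg _

theorem Gam_comm (G : SimpleGraph (Fin n)) (z : ℂ) (s t : Fin n × (Fin d → Fin n)) :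
    Gam G z s t = Gam G z t s := by
  unfold Gam
  rw [Finset.sum_comm]
  refine Finset.sum_congr rfl fun y _ => Finset.sum_congr rfl fun x _ => ?_
  have h := congrFun (congrFun (res_symm G ∅ z) (B.pos t y)) (B.pos s x)
  rw [Matrix.transpose_apply] at h
  rw [h]

theorem dev_one (G : SimpleGraph (Fin n)) (z : ℂ) (t : Fin n × (Fin d → Fin n)) :
    dev (one G t) z = min 1 (S1 G z t) := by
  unfold dev S1
  congr 1
  rw [Fintype.sum_prod_type, Fin.sum_univ_one]
  refine Finset.sum_congr rfl fun o _ => ?_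
  rw [Fintype.sum_prod_type, Fin.sum_univ_one]
  refine Finset.sum_congr rfl fun o' _ => ?_
  rfl

theorem dev_two (G : SimpleGraph (Fin n)) (z : ℂ) (s : Fin 2 → Fin n × (Fin d → Fin n)) :
    dev (B.mk G s) z = min 1 (S1 G z (s 0) + Gam G z (s 0) (s 1) +
      (Gam G z (s 1) (s 0) + S1 G z (s 1))) := by
  unfold dev S1 Gam
  congr 1
  rw [Fintype.sum_prod_type, Fin.sum_univ_two]
  have e1 : ∀ (i j : Fin 2) (o o' : Option (Fin d)), i = j →
      ‖starMat (B.mk G s) z (i, o) (j, o') - Kz d z (mm d z) 2 (i, o) (j, o')‖ ^ 2 =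
      ‖resD (adj G) ∅ z (B.pos (s i) o) (B.pos (s j) o') - kz d z o o'‖ ^ 2 := by
    intro i j o o' hij
    have : Kz d z (mm d z) 2 (i, o) (j, o') = kz d z o o' := if_pos hij
    rw [this]
    rfl
  have e2 : ∀ (i j : Fin 2) (o o' : Option (Fin d)), i ≠ j →
      ‖starMat (B.mk G s) z (i, o) (j, o') - Kz d z (mm d z) 2 (i, o) (j, o')‖ ^ 2 =
      ‖resD (adj G) ∅ z (B.pos (s i) o) (B.pos (s j) o')‖ ^ 2 := by
    intro i j o o' hij
    have : Kz d z (mm d z) 2 (i, o) (j, o') = 0 := if_neg hij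
    rw [this, sub_zero]
    rfl
  have e3 : ∀ (i : Fin 2) (o : Option (Fin d)), ∑ y : Fin 2 × Option (Fin d),
      ‖starMat (B.mk G s) z (i, o) y - Kz d z (mm d z) 2 (i, o) y‖ ^ 2 =
      ∑ o', ‖starMat (B.mk G s) z (i, o) (0, o') - Kz d z (mm d z) 2 (i, o) (0, o')‖ ^ 2 +
      ∑ o', ‖starMat (B.mk G s) z (i, o) (1, o') - Kz d z (mm d z) 2 (i, o) (1, o')‖ ^ 2 := by
    intro i o
    rw [Fintype.sum_prod_type, Fin.sum_univ_two]
  simp only [e3, Finset.sum_add_distrib]
  refine congrArg₂ (· + ·) (congrArg₂ (· + ·) ?_ ?_) (congrArg₂ (· + ·) ?_ ?_)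
  · exact Finset.sum_congr rfl fun o _ => Finset.sum_congr rfl fun o' _ => e1 0 0 o o' rfl
  · exact Finset.sum_congr rfl fun o _ => Finset.sum_congr rfl fun o' _ =>
      e2 0 1 o o' (by decide)
  · exact Finset.sum_congr rfl fun o _ => Finset.sum_congr rfl fun o' _ =>
      e2 1 0 o o' (by decide)
  · exact Finset.sum_congr rfl fun o _ => Finset.sum_congr rfl fun o' _ => e1 1 1 o o' rfl

/-- Resampling one star of a tuple. -/
theorem avg_mstars_resample {K : ℕ} {G : SimpleGraph (Fin n)} (i : Fin K)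
    (f : (Fin K → Fin n × (Fin d → Fin n)) → ℝ) :
    avg (B.mstars d K G) (fun s => avg (B.stars d G) (fun t => f (Function.update s i t))) =
      avg (B.mstars d K G) f := by
  unfold avg
  have h := B.sum_resample (G := G) (d := d) i f
  rw [← Finset.sum_div, h]
  by_cases hc : ((B.stars d G).card : ℝ) = 0
  · have h0 : B.mstars d K G = ∅ := by
      rw [Finset.eq_empty_iff_forall_notMem]
      intro s hs
      have h1 := B.mem_mstars.1 hs i
      have h2 : B.stars d G = ∅ := by
        rw [← Finset.card_eq_zero]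
        exact_mod_cast hc
      rw [h2] at h1
      exact absurd h1 (Finset.notMem_empty _)
    rw [h0]
    simp
  · rw [mul_div_cancel_left₀ _ hc]

theorem avg_mstars_coord {K : ℕ} {G : SimpleGraph (Fin n)} (hG : B.Reg d G) (hn : 0 < n)
    (i : Fin K) (F : Fin n × (Fin d → Fin n) → ℝ) :
    avg (B.mstars d K G) (fun s => F (s i)) = avg (B.stars d G) F := by
  rw [← avg_mstars_resample i (fun s => F (s i))]
  have hne : (B.mstars d K G).Nonempty := by
    obtain ⟨t, ht⟩ := B.stars_nonempty hG hn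
    exact ⟨fun _ => t, B.mem_mstars.2 fun _ => ht⟩
  have h : ∀ s ∈ B.mstars d K G, avg (B.stars d G)
      (fun t => (fun s : Fin K → Fin n × (Fin d → Fin n) => F (s i)) (Function.update s i t)) =
      avg (B.stars d G) F := by
    intro s _
    refine avg_congr fun t _ => ?_
    simp only [Function.update_self]
  rw [avg_congr h, avg_const hne]

theorem kz_norm {c : ℝ} (hc : 0 < c) {z : ℂ} (hm : ‖mm d z‖ ≤ 1) (hcz : c ≤ ‖z + d * mm d z‖)
    (o o' : Option (Fin d)) : ‖kz d z o o'‖ ≤ 1 / c := by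
  unfold kz
  rw [norm_mul, norm_div, norm_neg, norm_one, norm_pow, norm_neg]
  calc 1 / ‖z + d * mm d z‖ * ‖mm d z‖ ^ starDist o o' ≤ 1 / c * 1 :=
        mul_le_mul (one_div_le_one_div_of_le hc hcz) (pow_le_one₀ (norm_nonneg _) hm)
          (pow_nonneg (norm_nonneg _) _) (by positivity)
    _ = 1 / c := mul_one _

theorem S1_entry {G : SimpleGraph (Fin n)} {z : ℂ} {t : Fin n × (Fin d → Fin n)}
    (h : S1 G z t ≤ 1) (o o' : Option (Fin d)) :
    ‖resD (adj G) ∅ z (B.pos t o) (B.pos t o') - kz d z o o'‖ ≤ 1 := by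
  have h1 : ‖resD (adj G) ∅ z (B.pos t o) (B.pos t o') - kz d z o o'‖ ^ 2 ≤ 1 := by
    refine le_trans ?_ h
    unfold S1
    calc ‖resD (adj G) ∅ z (B.pos t o) (B.pos t o') - kz d z o o'‖ ^ 2
        ≤ ∑ o', ‖resD (adj G) ∅ z (B.pos t o) (B.pos t o') - kz d z o o'‖ ^ 2 :=
          Finset.single_le_sum (f := fun o' =>
            ‖resD (adj G) ∅ z (B.pos t o) (B.pos t o') - kz d z o o'‖ ^ 2)
            (fun _ _ => sq_nonneg _) (Finset.mem_univ o')
      _ ≤ _ := Finset.single_le_sum (f := fun o => ∑ o',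
            ‖resD (adj G) ∅ z (B.pos t o) (B.pos t o') - kz d z o o'‖ ^ 2)
            (fun _ _ => Finset.sum_nonneg fun _ _ => sq_nonneg _) (Finset.mem_univ o)
  have h2 := norm_nonneg (resD (adj G) ∅ z (B.pos t o) (B.pos t o') - kz d z o o')
  nlinarith

theorem avg_min_Gam {c : ℝ} (hc : 0 < c) {G : SimpleGraph (Fin n)}
    (hG : G ∈ regularGraphs n d) (hn : 0 < n) {E η : ℝ} (hη : 0 < η)
    (hm : ‖mm d (zz E η)‖ ≤ 1) (hcz : c ≤ ‖zz E η + d * mm d (zz E η)‖)
    (s : Fin n × (Fin d → Fin n)) :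
    avg (B.stars d G) (fun t => min 1 (Gam G (zz E η) s t)) ≤
      dev (one G s) (zz E η) + ((d : ℝ) + 1) ^ 2 * (1 + 1 / c) / (n * η) := by
  have hnR : (0 : ℝ) < n := by exact_mod_cast hn
  rcases le_or_gt (S1 G (zz E η) s) 1 with h | h
  · have h1 : avg (B.stars d G) (fun t => min 1 (Gam G (zz E η) s t)) ≤
        avg (B.stars d G) (fun t => Gam G (zz E η) s t) :=
      H490.avg_mono fun t _ => min_le_right _ _
    rw [specWard d n G hG hn E η hη s] at h1
    have h2 : ∑ x : Option (Fin d), (resD (adj G) ∅ (zz E η) (B.pos s x) (B.pos s x)).im ≤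
        ((d : ℝ) + 1) * (1 + 1 / c) := by
      calc ∑ x : Option (Fin d), (resD (adj G) ∅ (zz E η) (B.pos s x) (B.pos s x)).im
          ≤ ∑ _x : Option (Fin d), (1 + 1 / c) := by
            refine Finset.sum_le_sum fun x _ => ?_
            refine le_trans (le_trans (le_abs_self _) (Complex.abs_im_le_norm _)) ?_
            have h3 := S1_entry h x x
            have h4 := kz_norm hc hm hcz x x
            calc ‖resD (adj G) ∅ (zz E η) (B.pos s x) (B.pos s x)‖
                = ‖(resD (adj G) ∅ (zz E η) (B.pos s x) (B.pos s x) - kz d (zz E η) x x) +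
                  kz d (zz E η) x x‖ := by rw [sub_add_cancel]
              _ ≤ _ := norm_add_le _ _
              _ ≤ 1 + 1 / c := add_le_add h3 h4
        _ = ((d : ℝ) + 1) * (1 + 1 / c) := by
            rw [Finset.sum_const, Finset.card_univ, Fintype.card_option, Fintype.card_fin,
              nsmul_eq_mul]
            push_cast
            ring
    have h5 : ((d : ℝ) + 1) / (n * η) * ∑ x : Option (Fin d),
        (resD (adj G) ∅ (zz E η) (B.pos s x) (B.pos s x)).im ≤
        ((d : ℝ) + 1) ^ 2 * (1 + 1 / c) / (n * η) := by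
      calc _ ≤ ((d : ℝ) + 1) / (n * η) * (((d : ℝ) + 1) * (1 + 1 / c)) :=
            mul_le_mul_of_nonneg_left h2 (by positivity)
        _ = _ := by ring
    have h6 : 0 ≤ dev (one G s) (zz E η) := by
      rw [dev_one]
      exact le_min zero_le_one (S1_nonneg _ _ _)
    linarith
  · have h1 : dev (one G s) (zz E η) = 1 := by
      rw [dev_one]
      exact min_eq_left h.le
    rw [h1]
    have h2 : avg (B.stars d G) (fun t => min 1 (Gam G (zz E η) s t)) ≤ 1 :=
      avg_le_of_le zero_le_one fun t _ => min_le_left _ _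
    have h3 : 0 ≤ ((d : ℝ) + 1) ^ 2 * (1 + 1 / c) / (n * η) := by positivity
    linarith

theorem rho_nonneg {K : ℕ} (ω : SimpleGraph (Fin n) × StarPos n d K) (z : ℂ) :
    0 ≤ FE.rho ω z :=
  le_min zero_le_one (Finset.sum_nonneg fun _ _ => Finset.sum_nonneg fun _ _ => sq_nonneg _)

theorem dev_nonneg {K : ℕ} (ω : SimpleGraph (Fin n) × StarPos n d K) (z : ℂ) :
    0 ≤ FE.dev ω z :=
  le_min zero_le_one (Finset.sum_nonneg fun _ _ => Finset.sum_nonneg fun _ _ => sq_nonneg _)

theorem rho_le_one {K : ℕ} (ω : SimpleGraph (Fin n) × StarPos n d K) (z : ℂ) :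
    FE.rho ω z ≤ 1 := min_le_left _ _

theorem dev_le_one {K : ℕ} (ω : SimpleGraph (Fin n) × StarPos n d K) (z : ℂ) :
    FE.dev ω z ≤ 1 := min_le_left _ _

open Classical in
theorem avg_bad_le {K : ℕ} {G : SimpleGraph (Fin n)} (hG : B.Reg d G) (hn : 0 < n) :
    avg (B.mstars d K G) (fun s => if B.Good s then (0 : ℝ) else 1) ≤
      (K ^ 2 * (d + 1) ^ 2 : ℕ) / n := by
  have h := B.sum_bad_le (K := K) hG
  rw [Fintype.card_fin] at h
  have hnR : (0 : ℝ) < n := by exact_mod_cast hn
  unfold avg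
  rcases Nat.eq_zero_or_pos (B.mstars d K G).card with h0 | h0
  · rw [h0]
    simp only [Nat.cast_zero, div_zero]
    positivity
  · have h0' : (0 : ℝ) < (B.mstars d K G).card := by exact_mod_cast h0
    rw [div_le_div_iff₀ h0' hnR]
    linarith

theorem good_ZZs {K : ℕ} {G : SimpleGraph (Fin n)} (hG : G ∈ regularGraphs n d)
    {s : Fin K → Fin n × (Fin d → Fin n)} (hs : s ∈ B.mstars d K G) (hg : B.Good s) :
    B.mk G s ∈ ZZs n d K :=
  B.mem_ZZs.2 ⟨B.mem_WW.2 ⟨B.mem_regularGraphs.1 hG, hs⟩, hg⟩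

/-- **FE6**: per graph comparison of one and two stars. -/
theorem specRV {d : ℕ} {a b : ℝ} (hd : 3 ≤ d) (hM : SpecM d a b) : SpecRV d a b := by
  classical
  obtain ⟨C1, hC1, hcomp⟩ := specComp hd hM 2
  obtain ⟨c, hc, _, hm, _, _⟩ := hM
  set C2 : ℝ := ((d : ℝ) + 1) ^ 2 * (1 + 1 / c) with hC2
  set C3 : ℝ := ((2 ^ 2 * (d + 1) ^ 2 : ℕ) : ℝ) with hC3
  have hC20 : 0 ≤ C2 := by positivity
  have hC30 : 0 ≤ C3 := by positivity
  refine ⟨4 * C1 + 2 * C1 * C2 + C3 + 1, ?_⟩
  intro n hadm G hG E hE η h0 h1 hnη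
  have hn : 0 < n := lt_of_le_of_lt (Nat.zero_le d) hadm.1
  have hnR : (0 : ℝ) < n := by exact_mod_cast hn
  obtain ⟨him, hm1, _, _, hroot⟩ := hm E hE η h0 h1
  have hd1 : (1 : ℝ) ≤ d := by exact_mod_cast (by omega : 1 ≤ d)
  have hcz : c ≤ ‖zz E η + d * mm d (zz E η)‖ := by
    refine le_trans ?_ (Complex.abs_im_le_norm _)
    have h2 : (zz E η + d * mm d (zz E η)).im = η + d * (mm d (zz E η)).im := by
      rw [Complex.add_im, zz_im, Complex.mul_im]
      simp
    rw [h2]
    refine le_trans ?_ (le_abs_self _)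
    nlinarith
  have hG' := B.mem_regularGraphs.1 hG
  set z := zz E η with hz
  have hVV : ∀ i : Fin 2, avg (B.mstars d 2 G) (fun s => dev (one G (s i)) z) = VV d G z :=
    fun i => avg_mstars_coord hG' hn i (fun t => dev (one G t) z)
  have hbad := avg_bad_le (K := 2) hG' hn
  have hbad' : avg (B.mstars d 2 G) (fun s => if B.Good s then (0 : ℝ) else 1) ≤ C3 / n := hbad
  have hn1 : C3 / n ≤ C3 / (n * η) := by
    refine div_le_div_of_nonneg_left hC30 (by positivity) ?_
    nlinarith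
  have hV0 : 0 ≤ VV d G z := H490.avg_nonneg fun t _ => dev_nonneg _ _
  have hR0 : 0 ≤ RG d G z := H490.avg_nonneg fun t _ => rho_nonneg _ _
  have hx0 : 0 ≤ 1 / ((n : ℝ) * η) := by positivity
  constructor
  · -- RG ≤ C (VV + 1/(nη))
    have hpt : ∀ s ∈ B.mstars d 2 G, FE.rho (B.mk G s) z ≤
        C1 * (dev (one G (s 0)) z + dev (one G (s 1)) z + 2 * min 1 (Gam G z (s 0) (s 1))) +
        (if B.Good s then (0 : ℝ) else 1) := by
      intro s hs
      have hp : 0 ≤ C1 * (dev (one G (s 0)) z + dev (one G (s 1)) z +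
          2 * min 1 (Gam G z (s 0) (s 1))) := by
        have := dev_nonneg (one G (s 0)) z
        have := dev_nonneg (one G (s 1)) z
        have : 0 ≤ min 1 (Gam G z (s 0) (s 1)) := le_min zero_le_one (Gam_nonneg _ _ _ _)
        positivity
      by_cases hg : B.Good s
      · rw [if_pos hg, add_zero]
        refine le_trans (hcomp n (B.mk G s) (good_ZZs hG hs hg) E hE η h0 h1).1 ?_
        refine mul_le_mul_of_nonneg_left ?_ (by linarith)
        rw [← hz, dev_two, dev_one, dev_one, Gam_comm G z (s 1) (s 0)]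
        have a1 := S1_nonneg G z (s 0)
        have a2 := S1_nonneg G z (s 1)
        have a3 := Gam_nonneg G z (s 0) (s 1)
        refine le_trans (min_one_add _ _ (by positivity) (by positivity)) ?_
        have b1 := min_one_add _ _ a1 a3
        have b2 := min_one_add _ _ a3 a2
        linarith
      · rw [if_neg hg]
        have := rho_le_one (B.mk G s) z
        linarith
    have hg : avg (B.mstars d 2 G) (fun s => min 1 (Gam G z (s 0) (s 1))) ≤
        VV d G z + C2 / (n * η) := by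
      rw [← avg_mstars_resample (1 : Fin 2) (fun s => min 1 (Gam G z (s 0) (s 1)))]
      have h2 : avg (B.mstars d 2 G) (fun s => avg (B.stars d G) (fun t =>
          (fun s : Fin 2 → Fin n × (Fin d → Fin n) => min 1 (Gam G z (s 0) (s 1)))
            (Function.update s 1 t))) ≤
          avg (B.mstars d 2 G) (fun s => dev (one G (s 0)) z + C2 / (n * η)) := by
        refine H490.avg_mono fun s _ => ?_
        have h3 := avg_min_Gam hc hG hn h0 hm1 hcz (s 0)
        have h4 : ∀ t : Fin n × (Fin d → Fin n),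
            (fun s : Fin 2 → Fin n × (Fin d → Fin n) => min 1 (Gam G z (s 0) (s 1)))
            (Function.update s 1 t) = min 1 (Gam G z (s 0) t) := by
          intro t
          simp
        rw [avg_congr fun t _ => h4 t]
        exact h3
      refine le_trans h2 ?_
      rw [avg_add, hVV 0]
      have : avg (B.mstars d 2 G) (fun _ => C2 / (n * η)) ≤ C2 / (n * η) :=
        H490.avg_const_le _ (by positivity)
      linarith
    have hsum : RG d G z ≤ C1 * (VV d G z + VV d G z + 2 * (VV d G z + C2 / (n * η))) +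
        C3 / n := by
      have h2 := H490.avg_mono hpt
      rw [avg_add, avg_mul_left, avg_add, avg_add, hVV 0, hVV 1, avg_mul_left] at h2
      refine le_trans h2 (add_le_add (mul_le_mul_of_nonneg_left ?_ (by linarith)) hbad')
      linarith
    have e3 : C3 / ((n : ℝ) * η) = C3 * (1 / (n * η)) := by ring
    have e2 : C2 / ((n : ℝ) * η) = C2 * (1 / (n * η)) := by ring
    rw [e3] at hn1
    rw [e2] at hsum
    have e4 : (4 * C1 + 2 * C1 * C2 + C3 + 1) * (VV d G z + 1 / (n * η)) =
        C1 * (VV d G z + VV d G z + 2 * (VV d G z + C2 * (1 / (n * η)))) + C3 * (1 / (n * η)) +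
        ((2 * C1 * C2 + C3 + 1) * VV d G z + (4 * C1 + 1) * (1 / (n * η))) := by ring
    have p1 : 0 ≤ (2 * C1 * C2 + C3 + 1) * VV d G z + (4 * C1 + 1) * (1 / (n * η)) := by
      positivity
    rw [e4]
    linarith
  · -- VV ≤ C (RG + 1/n)
    have hpt : ∀ s ∈ B.mstars d 2 G, dev (one G (s 0)) z ≤
        C1 * FE.rho (B.mk G s) z + (if B.Good s then (0 : ℝ) else 1) := by
      intro s hs
      have hr := rho_nonneg (B.mk G s) z
      by_cases hg : B.Good s
      · rw [if_pos hg, add_zero]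
        refine le_trans ?_ (hcomp n (B.mk G s) (good_ZZs hG hs hg) E hE η h0 h1).2
        rw [← hz, dev_two, dev_one]
        refine min_le_min le_rfl ?_
        have a2 := S1_nonneg G z (s 1)
        have a3 := Gam_nonneg G z (s 0) (s 1)
        have a4 := Gam_nonneg G z (s 1) (s 0)
        linarith
      · rw [if_neg hg]
        have := dev_le_one (one G (s 0)) z
        nlinarith
    have h2 := H490.avg_mono hpt
    rw [hVV 0, avg_add, avg_mul_left] at h2
    have h3 : avg (B.mstars d 2 G) (fun s => FE.rho (B.mk G s) z) = RG d G z := rfl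
    rw [h3] at h2
    have e2 : C3 / n = C3 * (1 / n) := by ring
    rw [e2] at hbad'
    have e4 : (4 * C1 + 2 * C1 * C2 + C3 + 1) * (RG d G z + 1 / n) =
        C1 * RG d G z + C3 * (1 / n) +
        ((3 * C1 + 2 * C1 * C2 + C3 + 1) * RG d G z + (4 * C1 + 2 * C1 * C2 + 1) * (1 / n)) := by
      ring
    have p1 : 0 ≤ (3 * C1 + 2 * C1 * C2 + C3 + 1) * RG d G z +
        (4 * C1 + 2 * C1 * C2 + 1) * (1 / (n : ℝ)) := by
      positivity
    rw [e4]
    linarith

end H520

end

end Vale.Agent.P156
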