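import Mathlib
import Vale.Agent.P156.H520.Final

/-! FE6, part a: deterministic comparability of the lead matrix and the star matrix. -/

open MeasureTheory Filter Topology Matrix Finset

namespace Vale.Agent.P156

noncomputable section

namespace H520

open scoped Matrix.Norms.Frobenius

section Frob

variable {l m n k : Type*} [Fintype l] [Fintype m] [Fintype n] [Fintype k]

theorem fro_sq (M : Matrix m n ℂ) : ‖M‖ ^ 2 = ∑ i, ∑ j, ‖M i j‖ ^ 2 := by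
  rw [Matrix.frobenius_norm_def, ← Real.sqrt_eq_rpow]
  have h : ∑ i, ∑ j, ‖M i j‖ ^ (2 : ℝ) = ∑ i, ∑ j, ‖M i j‖ ^ 2 := by
    refine Finset.sum_congr rfl fun i _ => Finset.sum_congr rfl fun j _ => ?_
    exact Real.rpow_two _
  rw [h, Real.sq_sqrt (Finset.sum_nonneg fun i _ => Finset.sum_nonneg fun j _ => sq_nonneg _)]

theorem fro_entry (M : Matrix m n ℂ) (i : m) (j : n) : ‖M i j‖ ≤ ‖M‖ := by
  have h : ‖M i j‖ ^ 2 ≤ ‖M‖ ^ 2 := by
    rw [fro_sq]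
    calc ‖M i j‖ ^ 2 ≤ ∑ j, ‖M i j‖ ^ 2 :=
          Finset.single_le_sum (f := fun j => ‖M i j‖ ^ 2) (fun _ _ => sq_nonneg _)
            (Finset.mem_univ j)
      _ ≤ ∑ i, ∑ j, ‖M i j‖ ^ 2 :=
          Finset.single_le_sum (f := fun i => ∑ j, ‖M i j‖ ^ 2)
            (fun _ _ => Finset.sum_nonneg fun _ _ => sq_nonneg _) (Finset.mem_univ i)
  exact (pow_le_pow_iff_left₀ (norm_nonneg _) (norm_nonneg _) two_ne_zero).1 h

theorem fro_submatrix (M : Matrix m n ℂ) {f : l → m} {g : k → n} (hf : Function.Injective f)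
    (hg : Function.Injective g) : ‖M.submatrix f g‖ ≤ ‖M‖ := by
  classical
  have h : ‖M.submatrix f g‖ ^ 2 ≤ ‖M‖ ^ 2 := by
    rw [fro_sq, fro_sq]
    calc ∑ i, ∑ j, ‖M.submatrix f g i j‖ ^ 2
        = ∑ i, ∑ j ∈ Finset.univ.image g, ‖M (f i) j‖ ^ 2 := by
          refine Finset.sum_congr rfl fun i _ => ?_
          rw [Finset.sum_image (fun a _ b _ h => hg h)]
          rfl
      _ ≤ ∑ i, ∑ j, ‖M (f i) j‖ ^ 2 := by
          refine Finset.sum_le_sum fun i _ => ?_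
          exact Finset.sum_le_sum_of_subset_of_nonneg (Finset.subset_univ _)
            (fun _ _ _ => sq_nonneg _)
      _ = ∑ i ∈ Finset.univ.image f, ∑ j, ‖M i j‖ ^ 2 := by
          rw [Finset.sum_image (fun a _ b _ h => hf h)]
      _ ≤ ∑ i, ∑ j, ‖M i j‖ ^ 2 :=
          Finset.sum_le_sum_of_subset_of_nonneg (Finset.subset_univ _)
            (fun _ _ _ => Finset.sum_nonneg fun _ _ => sq_nonneg _)
  exact (pow_le_pow_iff_left₀ (norm_nonneg _) (norm_nonneg _) two_ne_zero).1 h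

theorem fro_le_of_entry (M : Matrix m n ℂ) {B : ℝ} (hB : 0 ≤ B) (h : ∀ i j, ‖M i j‖ ≤ B) :
    ‖M‖ ≤ Real.sqrt (Fintype.card m * Fintype.card n) * B := by
  have h1 : ‖M‖ ^ 2 ≤ (Real.sqrt (Fintype.card m * Fintype.card n) * B) ^ 2 := by
    rw [fro_sq, mul_pow, Real.sq_sqrt (by positivity)]
    calc ∑ i, ∑ j, ‖M i j‖ ^ 2 ≤ ∑ _i : m, ∑ _j : n, B ^ 2 := by
          refine Finset.sum_le_sum fun i _ => Finset.sum_le_sum fun j _ => ?_
          exact pow_le_pow_left₀ (norm_nonneg _) (h i j) 2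
      _ = Fintype.card m * Fintype.card n * B ^ 2 := by
          simp [Finset.sum_const, mul_assoc]
  exact (pow_le_pow_iff_left₀ (norm_nonneg _) (by positivity) two_ne_zero).1 h1

theorem lip_mul {A A0 : Matrix l m ℂ} {B B0 : Matrix m n ℂ} {x M N a b : ℝ}
    (hA : ‖A - A0‖ ≤ a * x) (hB : ‖B - B0‖ ≤ b * x) (hM : ‖A‖ ≤ M) (hN : ‖B0‖ ≤ N) :
    ‖A * B - A0 * B0‖ ≤ (M * b + a * N) * x := by
  have h : A * B - A0 * B0 = A * (B - B0) + (A - A0) * B0 := by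
    rw [Matrix.mul_sub, Matrix.sub_mul]
    abel
  rw [h]
  have hM0 : 0 ≤ M := le_trans (norm_nonneg _) hM
  have hax : 0 ≤ a * x := le_trans (norm_nonneg _) hA
  calc ‖A * (B - B0) + (A - A0) * B0‖ ≤ ‖A * (B - B0)‖ + ‖(A - A0) * B0‖ := norm_add_le _ _
    _ ≤ ‖A‖ * ‖B - B0‖ + ‖A - A0‖ * ‖B0‖ :=
        add_le_add (Matrix.frobenius_norm_mul _ _) (Matrix.frobenius_norm_mul _ _)
    _ ≤ M * (b * x) + a * x * N :=
        add_le_add (mul_le_mul hM hB (norm_nonneg _) hM0) (mul_le_mul hA hN (norm_nonneg _) hax)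
    _ = (M * b + a * N) * x := by ring

end Frob

/-! ### Unitality of the Schur complement -/

section Unit

variable {V κ : Type*} [Fintype V] [DecidableEq V] [Fintype κ] [DecidableEq κ]

theorem unit_of_cut (M MD : Matrix V V ℂ) (P C : Matrix V κ ℂ) (z : ℂ)
    (hMD : IsUnit MD.det) (hMu : IsUnit M.det)
    (hPP : Pᵀ * P = 1) (hCP : Cᵀ * P = 0) (hMP : MD * P = P) (hsym : MDᵀ = MD)
    (hM : M = MD + P * Cᵀ + C * Pᵀ - (1 + z) • (P * Pᵀ)) :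
    IsUnit (-(z • (1 : Matrix κ κ ℂ)) - Cᵀ * MD⁻¹ * C).det := by
  set R := MD⁻¹ with hR
  set W := -(z • (1 : Matrix κ κ ℂ)) - Cᵀ * R * C with hWdef
  have hMR : MD * R = 1 := Matrix.mul_nonsing_inv _ hMD
  have hRM : R * MD = 1 := Matrix.nonsing_inv_mul _ hMD
  have hRsym : Rᵀ = R := by
    rw [hR, Matrix.transpose_nonsing_inv, hsym]
  have hRP : R * P = P := by
    calc R * P = R * (MD * P) := by rw [hMP]
      _ = P := by rw [← Matrix.mul_assoc, hRM, Matrix.one_mul]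
  have hPR : Pᵀ * R = Pᵀ := by
    have := congrArg Matrix.transpose hRP
    rwa [Matrix.transpose_mul, hRsym] at this
  have hPC : Pᵀ * C = 0 := by
    have := congrArg Matrix.transpose hCP
    rwa [Matrix.transpose_mul, Matrix.transpose_transpose, Matrix.transpose_zero] at this
  have h1 : M * P = C - z • P := by
    rw [hM, Matrix.sub_mul, Matrix.add_mul, Matrix.add_mul, hMP, Matrix.mul_assoc P, hCP,
      Matrix.mul_assoc C, hPP, Matrix.smul_mul, Matrix.mul_assoc P, hPP]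
    simp only [Matrix.mul_zero, Matrix.mul_one, add_smul, one_smul]
    abel
  have h2 : M * R = 1 + P * Cᵀ * R + C * Pᵀ - (1 + z) • (P * Pᵀ) := by
    rw [hM, Matrix.sub_mul, Matrix.add_mul, Matrix.add_mul, hMR, Matrix.smul_mul,
      Matrix.mul_assoc C, hPR, Matrix.mul_assoc P Pᵀ R, hPR]
  have h4 : M * (R * C) = C + P * (Cᵀ * R * C) := by
    rw [← Matrix.mul_assoc, h2]
    simp only [Matrix.sub_mul, Matrix.add_mul, Matrix.one_mul, Matrix.smul_mul, Matrix.mul_assoc,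
      hPC, Matrix.mul_zero, smul_zero, add_zero, sub_zero]
  have h5 : M * (P - R * C) = P * W := by
    rw [Matrix.mul_sub, h1, h4, hWdef, Matrix.mul_sub]
    simp only [Matrix.mul_neg, Matrix.mul_smul, Matrix.mul_one]
    abel
  have h6 : P - R * C = M⁻¹ * (P * W) := by
    rw [← h5, ← Matrix.mul_assoc, Matrix.nonsing_inv_mul _ hMu, Matrix.one_mul]
  have h7 : Pᵀ * M⁻¹ * P * W = 1 := by
    have : Pᵀ * (P - R * C) = 1 := by
      rw [Matrix.mul_sub, hPP, ← Matrix.mul_assoc, hPR, hPC, sub_zero]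
    rw [h6] at this
    rw [← this]
    simp only [Matrix.mul_assoc]
  exact (Matrix.isUnit_iff_isUnit_det _).1 (IsUnit.of_mul_eq_one_right _ h7)

end Unit

variable {n d K : ℕ} {ω : SimpleGraph (Fin n) × StarPos n d K}

theorem isUnit_WWm (hω : ω ∈ ZZs n d K) {z : ℂ} (hz : z.im ≠ 0) :
    IsUnit (WWm (leadMat ω z) z).det := by
  have h := unit_of_cut (cutMat (adj ω.1) ∅ z) (cutMat (adj ω.1) (centres ω) z) (PP ω) (CC ω) z
    (isUnit_cut _ _ hz) (isUnit_cut _ _ hz) (PP_PP hω) (CC_PP hω) (cut_PP z) (cut_symm _ _ _)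
    (cut_decomp hω z)
  have : (CC ω)ᵀ * (cutMat (adj ω.1) (centres ω) z)⁻¹ * CC ω =
    (BB d K)ᵀ * leadMat ω z * BB d K := CRC hω z
  rw [this] at h
  exact h

theorem starMat_eq' (hω : ω ∈ ZZs n d K) {z : ℂ} (hz : z.im ≠ 0) :
    starMat ω z = QofR (leadMat ω z) z :=
  starMat_eq hω z (isUnit_cut _ _ hz) (isUnit_WWm hω hz)

/-! ### Lipschitz bounds -/

/-- Embedding of the leads in the pattern. -/
def Emb (d K : ℕ) : Matrix (Fin K × Option (Fin d)) (Fin K × Fin d) ℂ :=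
  fun a p => if a = (p.1, some p.2) then 1 else 0

/-- Constant part of `TT`. -/
def TT0 (d K : ℕ) : Matrix (Fin K × Option (Fin d)) (Fin K) ℂ :=
  fun a j => if a = (j, none) then 1 else 0

theorem Emb_mul_some {α : Type*} [Fintype α] (X : Matrix (Fin K × Fin d) α ℂ) (i : Fin K)
    (k : Fin d) (j : α) : (Emb d K * X) (i, some k) j = X (i, k) j := by
  rw [Matrix.mul_apply, Finset.sum_eq_single (i, k)]
  · simp [Emb]
  · rintro ⟨i', k'⟩ _ h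
    have : ¬ ((i, some k) = (i', some k')) := by
      rintro ⟨⟩
      exact h rfl
    simp [Emb, this]
  · intro h
    exact absurd (Finset.mem_univ _) h

theorem Emb_mul_none {α : Type*} [Fintype α] (X : Matrix (Fin K × Fin d) α ℂ) (i : Fin K)
    (j : α) : (Emb d K * X) (i, none) j = 0 := by
  rw [Matrix.mul_apply]
  refine Finset.sum_eq_zero fun p _ => ?_
  simp [Emb]

theorem TT_eq (R : Matrix (Fin K × Fin d) (Fin K × Fin d) ℂ) :
    TT R = TT0 d K - Emb d K * (R * BB d K) := by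
  ext ⟨i, o⟩ j
  rw [Matrix.sub_apply]
  rcases o with _ | k
  · rw [Emb_mul_none, sub_zero]
    show (if i = j then (1 : ℂ) else 0) = if ((i, none) : Fin K × Option (Fin d)) = (j, none)
      then 1 else 0
    simp
  · rw [Emb_mul_some]
    show -(R * BB d K) (i, k) j = (if ((i, some k) : Fin K × Option (Fin d)) = (j, none)
      then 1 else 0) - _
    simp

theorem LLm_eq (R : Matrix (Fin K × Fin d) (Fin K × Fin d) ℂ) :
    LLm R = Emb d K * (R * (Emb d K)ᵀ) := by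
  have hr : ∀ (p : Fin K × Fin d) (i : Fin K) (k : Fin d), (R * (Emb d K)ᵀ) p (i, some k) =
      R p (i, k) := by
    intro p i k
    have h := Emb_mul_some (d := d) (K := K) (Rᵀ) i k p
    have h2 : (R * (Emb d K)ᵀ) = (Emb d K * Rᵀ)ᵀ := by
      rw [Matrix.transpose_mul, Matrix.transpose_transpose]
    rw [h2, Matrix.transpose_apply, h, Matrix.transpose_apply]
  have hr0 : ∀ (p : Fin K × Fin d) (i : Fin K), (R * (Emb d K)ᵀ) p (i, none) = 0 := by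
    intro p i
    have h := Emb_mul_none (d := d) (K := K) (Rᵀ) i p
    have h2 : (R * (Emb d K)ᵀ) = (Emb d K * Rᵀ)ᵀ := by
      rw [Matrix.transpose_mul, Matrix.transpose_transpose]
    rw [h2, Matrix.transpose_apply, h]
  ext ⟨i, o⟩ ⟨j, o'⟩
  rcases o with _ | k
  · rw [Emb_mul_none]
    rfl
  · rw [Emb_mul_some]
    rcases o' with _ | k'
    · rw [hr0]
      rfl
    · rw [hr]
      rfl

/-- indices of the centres -/
def iD (d K : ℕ) (j : Fin K) : Fin K × Option (Fin d) := (j, none)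

/-- indices of the leads -/
def iL (d K : ℕ) (p : Fin K × Fin d) : Fin K × Option (Fin d) := (p.1, some p.2)

theorem iD_inj : Function.Injective (iD d K) := by
  intro a b h
  simpa [iD] using h

theorem iL_inj : Function.Injective (iL d K) := by
  rintro ⟨a, a'⟩ ⟨b, b'⟩ h
  simpa [iL] using h

theorem TT_D (R : Matrix (Fin K × Fin d) (Fin K × Fin d) ℂ) :
    (TT R).submatrix (iD d K) id = 1 := by
  ext i j
  show (if i = j then (1 : ℂ) else 0) = _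
  rw [Matrix.one_apply]

theorem TT_L (R : Matrix (Fin K × Fin d) (Fin K × Fin d) ℂ) :
    (TT R).submatrix (iL d K) id = -(R * BB d K) := by
  ext p j
  rfl

theorem Q_DD (R : Matrix (Fin K × Fin d) (Fin K × Fin d) ℂ) (z : ℂ) :
    (QofR R z).submatrix (iD d K) (iD d K) = (WWm R z)⁻¹ := by
  have h : (QofR R z).submatrix (iD d K) (iD d K) = (LLm R).submatrix (iD d K) (iD d K) +
    (TT R).submatrix (iD d K) id * (WWm R z)⁻¹ * ((TT R).submatrix (iD d K) id)ᵀ := rfl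
  rw [h, TT_D, Matrix.one_mul, Matrix.transpose_one, Matrix.mul_one]
  have : (LLm R).submatrix (iD d K) (iD d K) = 0 := by
    ext i j
    rfl
  rw [this, zero_add]

theorem Q_LD (R : Matrix (Fin K × Fin d) (Fin K × Fin d) ℂ) (z : ℂ) :
    (QofR R z).submatrix (iL d K) (iD d K) = -(R * BB d K) * (WWm R z)⁻¹ := by
  have h : (QofR R z).submatrix (iL d K) (iD d K) = (LLm R).submatrix (iL d K) (iD d K) +
    (TT R).submatrix (iL d K) id * (WWm R z)⁻¹ * ((TT R).submatrix (iD d K) id)ᵀ := rfl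
  rw [h, TT_D, TT_L, Matrix.transpose_one, Matrix.mul_one]
  have : (LLm R).submatrix (iL d K) (iD d K) = 0 := by
    ext i j
    rfl
  rw [this, zero_add]

theorem Q_DL (R : Matrix (Fin K × Fin d) (Fin K × Fin d) ℂ) (z : ℂ) :
    (QofR R z).submatrix (iD d K) (iL d K) = (WWm R z)⁻¹ * (-(R * BB d K))ᵀ := by
  have h : (QofR R z).submatrix (iD d K) (iL d K) = (LLm R).submatrix (iD d K) (iL d K) +
    (TT R).submatrix (iD d K) id * (WWm R z)⁻¹ * ((TT R).submatrix (iL d K) id)ᵀ := rfl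
  rw [h, TT_D, TT_L, Matrix.one_mul]
  have : (LLm R).submatrix (iD d K) (iL d K) = 0 := by
    ext i j
    rfl
  rw [this, zero_add]

theorem Q_LL (R : Matrix (Fin K × Fin d) (Fin K × Fin d) ℂ) (z : ℂ) :
    (QofR R z).submatrix (iL d K) (iL d K) =
      R + -(R * BB d K) * (WWm R z)⁻¹ * (-(R * BB d K))ᵀ := by
  have h : (QofR R z).submatrix (iL d K) (iL d K) = (LLm R).submatrix (iL d K) (iL d K) +
    (TT R).submatrix (iL d K) id * (WWm R z)⁻¹ * ((TT R).submatrix (iL d K) id)ᵀ := rfl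
  rw [h, TT_L]
  congr 1

/-- The lead matrix in terms of the star matrix. -/
theorem rev_id (R : Matrix (Fin K × Fin d) (Fin K × Fin d) ℂ) (z : ℂ)
    (hW : IsUnit (WWm R z).det) :
    (QofR R z).submatrix (iL d K) (iL d K) - (QofR R z).submatrix (iL d K) (iD d K) *
      WWm R z * (QofR R z).submatrix (iD d K) (iL d K) = R := by
  rw [Q_LL, Q_LD, Q_DL]
  have h : -(R * BB d K) * (WWm R z)⁻¹ * WWm R z * ((WWm R z)⁻¹ * (-(R * BB d K))ᵀ) =
      -(R * BB d K) * (WWm R z)⁻¹ * (-(R * BB d K))ᵀ := by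
    rw [Matrix.mul_assoc (-(R * BB d K)) (WWm R z)⁻¹ (WWm R z), Matrix.nonsing_inv_mul _ hW,
      Matrix.mul_one, Matrix.mul_assoc]
  rw [h, add_sub_cancel_right]

theorem WWm_inv_scalar {z m : ℂ} (hne : z + d * m ≠ 0) :
    (WWm (m • (1 : Matrix (Fin K × Fin d) (Fin K × Fin d) ℂ)) z)⁻¹ =
      (-1 / (z + d * m)) • (1 : Matrix (Fin K) (Fin K) ℂ) := by
  rw [WWm_scalar]
  apply Matrix.inv_eq_right_inv
  rw [Matrix.smul_mul, Matrix.mul_smul, Matrix.one_mul, smul_smul]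
  have : -(z + d * m) * (-1 / (z + d * m)) = 1 := by field_simp
  rw [this, one_smul]

theorem WWm_unit_scalar {z m : ℂ} (hne : z + d * m ≠ 0) :
    IsUnit (WWm (m • (1 : Matrix (Fin K × Fin d) (Fin K × Fin d) ℂ)) z).det := by
  rw [WWm_scalar, Matrix.det_smul, Matrix.det_one, mul_one, isUnit_iff_ne_zero]
  exact pow_ne_zero _ (neg_ne_zero.2 hne)

theorem WWm_sub (R R' : Matrix (Fin K × Fin d) (Fin K × Fin d) ℂ) (z : ℂ) :
    WWm R' z - WWm R z = (BB d K)ᵀ * (R - R') * BB d K := by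
  unfold WWm
  rw [Matrix.mul_sub, Matrix.sub_mul]
  abel

/-- Lipschitz bound for the inverse of the Schur complement. -/
theorem W_lip {c : ℝ} (hc : 0 < c) {z m : ℂ} {R : Matrix (Fin K × Fin d) (Fin K × Fin d) ℂ}
    (hcz : c ≤ ‖z + d * m‖) (hW : IsUnit (WWm R z).det)
    (hx : ‖BB d K‖ * ‖BB d K‖ * ‖R - m • (1 : Matrix (Fin K × Fin d) (Fin K × Fin d) ℂ)‖ ≤ c / 2) :
    ‖(WWm R z)⁻¹‖ ≤ 2 * ‖(1 : Matrix (Fin K) (Fin K) ℂ)‖ / c ∧
    ‖(WWm R z)⁻¹ - (WWm (m • (1 : Matrix (Fin K × Fin d) (Fin K × Fin d) ℂ)) z)⁻¹‖ ≤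
      (‖BB d K‖ * ‖BB d K‖ * (2 * ‖(1 : Matrix (Fin K) (Fin K) ℂ)‖ / c) / c) *
        ‖R - m • (1 : Matrix (Fin K × Fin d) (Fin K × Fin d) ℂ)‖ ∧
    ‖(WWm (m • (1 : Matrix (Fin K × Fin d) (Fin K × Fin d) ℂ)) z)⁻¹‖ ≤
      ‖(1 : Matrix (Fin K) (Fin K) ℂ)‖ / c := by
  have hne : z + d * m ≠ 0 := by
    intro h
    rw [h, norm_zero] at hcz
    linarith
  have hW0u := WWm_unit_scalar (d := d) (K := K) hne
  have hW0inv := WWm_inv_scalar (d := d) (K := K) hne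
  have hdiff := WWm_sub R (m • (1 : Matrix (Fin K × Fin d) (Fin K × Fin d) ℂ)) z
  generalize WWm (m • (1 : Matrix (Fin K × Fin d) (Fin K × Fin d) ℂ)) z = W0 at *
  generalize WWm R z = W at *
  generalize R - m • (1 : Matrix (Fin K × Fin d) (Fin K × Fin d) ℂ) = X at *
  have hs10 : 0 ≤ ‖(1 : Matrix (Fin K) (Fin K) ℂ)‖ := norm_nonneg _
  have hnrm : ‖(-1 / (z + d * m) : ℂ)‖ ≤ 1 / c := by
    rw [norm_div, norm_neg, norm_one]
    exact one_div_le_one_div_of_le hc hcz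
  have hW0n : ‖W0⁻¹‖ ≤ ‖(1 : Matrix (Fin K) (Fin K) ℂ)‖ / c := by
    rw [hW0inv, norm_smul]
    calc ‖(-1 / (z + d * m) : ℂ)‖ * ‖(1 : Matrix (Fin K) (Fin K) ℂ)‖
        ≤ 1 / c * ‖(1 : Matrix (Fin K) (Fin K) ℂ)‖ := mul_le_mul_of_nonneg_right hnrm hs10
      _ = _ := by ring
  have hdn : ‖W0 - W‖ ≤ ‖BB d K‖ * ‖BB d K‖ * ‖X‖ := by
    rw [hdiff]
    calc ‖(BB d K)ᵀ * X * BB d K‖ ≤ ‖(BB d K)ᵀ * X‖ * ‖BB d K‖ := Matrix.frobenius_norm_mul _ _
      _ ≤ ‖(BB d K)ᵀ‖ * ‖X‖ * ‖BB d K‖ :=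
          mul_le_mul_of_nonneg_right (Matrix.frobenius_norm_mul _ _) (norm_nonneg _)
      _ = ‖BB d K‖ * ‖BB d K‖ * ‖X‖ := by
          rw [Matrix.frobenius_norm_transpose]
          ring
  have hinv : W⁻¹ - W0⁻¹ = W0⁻¹ * ((W0 - W) * W⁻¹) := by
    rw [Matrix.sub_mul, Matrix.mul_sub, Matrix.mul_nonsing_inv _ hW, ← Matrix.mul_assoc,
      Matrix.nonsing_inv_mul _ hW0u, Matrix.one_mul, Matrix.mul_one]
  have hinvn : ‖W⁻¹ - W0⁻¹‖ ≤ 1 / c * (‖BB d K‖ * ‖BB d K‖ * ‖X‖ * ‖W⁻¹‖) := by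
    rw [hinv, hW0inv, Matrix.smul_mul, Matrix.one_mul, norm_smul]
    refine mul_le_mul hnrm ?_ (norm_nonneg _) (by positivity)
    exact le_trans (Matrix.frobenius_norm_mul _ _) (mul_le_mul_of_nonneg_right hdn (norm_nonneg _))
  have hWn : ‖W⁻¹‖ ≤ 2 * ‖(1 : Matrix (Fin K) (Fin K) ℂ)‖ / c := by
    have h1 : ‖W⁻¹‖ ≤ ‖W0⁻¹‖ + ‖W⁻¹ - W0⁻¹‖ := by
      calc ‖W⁻¹‖ = ‖W0⁻¹ + (W⁻¹ - W0⁻¹)‖ := by rw [add_sub_cancel]
        _ ≤ _ := norm_add_le _ _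
    have h2 : 1 / c * (‖BB d K‖ * ‖BB d K‖ * ‖X‖ * ‖W⁻¹‖) ≤ 1 / 2 * ‖W⁻¹‖ := by
      have h3 : 1 / c * (‖BB d K‖ * ‖BB d K‖ * ‖X‖) ≤ 1 / 2 := by
        rw [one_div, inv_mul_le_iff₀ hc]
        linarith
      calc 1 / c * (‖BB d K‖ * ‖BB d K‖ * ‖X‖ * ‖W⁻¹‖)
          = 1 / c * (‖BB d K‖ * ‖BB d K‖ * ‖X‖) * ‖W⁻¹‖ := by ring
        _ ≤ 1 / 2 * ‖W⁻¹‖ := mul_le_mul_of_nonneg_right h3 (norm_nonneg _)
    have h4 : 2 * ‖(1 : Matrix (Fin K) (Fin K) ℂ)‖ / c =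
      2 * (‖(1 : Matrix (Fin K) (Fin K) ℂ)‖ / c) := by ring
    rw [h4]
    linarith
  refine ⟨hWn, ?_, hW0n⟩
  refine le_trans hinvn ?_
  calc 1 / c * (‖BB d K‖ * ‖BB d K‖ * ‖X‖ * ‖W⁻¹‖)
      ≤ 1 / c * (‖BB d K‖ * ‖BB d K‖ * ‖X‖ * (2 * ‖(1 : Matrix (Fin K) (Fin K) ℂ)‖ / c)) := by
        gcongr
    _ = _ := by ring

theorem TT_lip (R R' : Matrix (Fin K × Fin d) (Fin K × Fin d) ℂ) :
    ‖TT R - TT R'‖ ≤ ‖Emb d K‖ * ‖BB d K‖ * ‖R - R'‖ := by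
  have h1 : TT R - TT R' = -(Emb d K * ((R - R') * BB d K)) := by
    rw [TT_eq, TT_eq, Matrix.sub_mul, Matrix.mul_sub]
    abel
  rw [h1, norm_neg]
  calc ‖Emb d K * ((R - R') * BB d K)‖ ≤ ‖Emb d K‖ * ‖(R - R') * BB d K‖ :=
        Matrix.frobenius_norm_mul _ _
    _ ≤ ‖Emb d K‖ * (‖R - R'‖ * ‖BB d K‖) :=
        mul_le_mul_of_nonneg_left (Matrix.frobenius_norm_mul _ _) (norm_nonneg _)
    _ = _ := by ring

theorem TT_norm (R : Matrix (Fin K × Fin d) (Fin K × Fin d) ℂ) :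
    ‖TT R‖ ≤ ‖TT0 d K‖ + ‖Emb d K‖ * (‖R‖ * ‖BB d K‖) := by
  rw [TT_eq]
  refine le_trans (norm_sub_le _ _) (add_le_add le_rfl ?_)
  exact le_trans (Matrix.frobenius_norm_mul _ _)
    (mul_le_mul_of_nonneg_left (Matrix.frobenius_norm_mul _ _) (norm_nonneg _))

theorem LLm_lip (R R' : Matrix (Fin K × Fin d) (Fin K × Fin d) ℂ) :
    ‖LLm R - LLm R'‖ ≤ ‖Emb d K‖ * ‖Emb d K‖ * ‖R - R'‖ := by
  have h1 : LLm R - LLm R' = Emb d K * ((R - R') * (Emb d K)ᵀ) := by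
    rw [LLm_eq, LLm_eq, Matrix.sub_mul, Matrix.mul_sub]
  rw [h1]
  calc ‖Emb d K * ((R - R') * (Emb d K)ᵀ)‖ ≤ ‖Emb d K‖ * ‖(R - R') * (Emb d K)ᵀ‖ :=
        Matrix.frobenius_norm_mul _ _
    _ ≤ ‖Emb d K‖ * (‖R - R'‖ * ‖(Emb d K)ᵀ‖) :=
        mul_le_mul_of_nonneg_left (Matrix.frobenius_norm_mul _ _) (norm_nonneg _)
    _ = _ := by
        rw [Matrix.frobenius_norm_transpose]
        ring

theorem norm_smul_one_le {m : ℂ} (hm : ‖m‖ ≤ 1) :
    ‖m • (1 : Matrix (Fin K × Fin d) (Fin K × Fin d) ℂ)‖ ≤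
      ‖(1 : Matrix (Fin K × Fin d) (Fin K × Fin d) ℂ)‖ := by
  rw [norm_smul]
  calc ‖m‖ * ‖(1 : Matrix (Fin K × Fin d) (Fin K × Fin d) ℂ)‖
      ≤ 1 * ‖(1 : Matrix (Fin K × Fin d) (Fin K × Fin d) ℂ)‖ :=
        mul_le_mul_of_nonneg_right hm (norm_nonneg _)
    _ = _ := one_mul _

/-- Abstract core of `Q_lip`. -/
theorem Q_lip_core {a b : Type*} [Fintype a] [Fintype b] [DecidableEq b] {L L0 : Matrix a a ℂ}
    {T T0 : Matrix a b ℂ}
    {W W0 : Matrix b b ℂ} {x l t wi MT w1 w0 : ℝ}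
    (hL : ‖L - L0‖ ≤ l * x) (hT : ‖T - T0‖ ≤ t * x) (hW : ‖W - W0‖ ≤ wi * x) (hT1 : ‖T‖ ≤ MT)
    (hT2 : ‖T0‖ ≤ MT) (hw1 : ‖W‖ ≤ w1) (hw0 : ‖W0‖ ≤ w0) :
    ‖(L + T * W * Tᵀ) - (L0 + T0 * W0 * T0ᵀ)‖ ≤
      (l + (MT * w1 * t + (MT * wi + t * w0) * MT)) * x := by
  have hMT : 0 ≤ MT := le_trans (norm_nonneg _) hT1
  have hp1 : ‖T * W - T0 * W0‖ ≤ (MT * wi + t * w0) * x := lip_mul hT hW hT1 hw0
  have hp2 : ‖T * W * Tᵀ - T0 * W0 * T0ᵀ‖ ≤ (MT * w1 * t + (MT * wi + t * w0) * MT) * x := by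
    refine lip_mul hp1 (b := t) ?_ ?_ ?_
    · rw [← Matrix.transpose_sub, Matrix.frobenius_norm_transpose]
      exact hT
    · refine le_trans (Matrix.frobenius_norm_mul _ _) ?_
      exact mul_le_mul hT1 hw1 (norm_nonneg _) hMT
    · rw [Matrix.frobenius_norm_transpose]
      exact hT2
  have h : (L + T * W * Tᵀ) - (L0 + T0 * W0 * T0ᵀ) = (L - L0) + (T * W * Tᵀ - T0 * W0 * T0ᵀ) := by
    abel
  rw [h]
  refine le_trans (norm_add_le _ _) (le_trans (add_le_add hL hp2) (le_of_eq ?_))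
  ring

/-- From the leads to the star. -/
theorem Q_lip (d K : ℕ) {c : ℝ} (hc : 0 < c) : ∃ C > 0, ∃ δ > 0, ∀ (z m : ℂ)
    (R : Matrix (Fin K × Fin d) (Fin K × Fin d) ℂ), ((d : ℂ) - 1) * m ^ 2 + z * m + 1 = 0 →
    ‖m‖ ≤ 1 → c ≤ ‖z + d * m‖ → IsUnit (WWm R z).det →
    ‖R - m • (1 : Matrix (Fin K × Fin d) (Fin K × Fin d) ℂ)‖ ≤ δ →
    ‖QofR R z - Kz d z m K‖ ≤ C * ‖R - m • (1 : Matrix (Fin K × Fin d) (Fin K × Fin d) ℂ)‖ := by
  obtain ⟨β, hβ⟩ : ∃ β, β = ‖BB d K‖ := ⟨_, rfl⟩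
  obtain ⟨s1, hs1⟩ : ∃ s1, s1 = ‖(1 : Matrix (Fin K) (Fin K) ℂ)‖ := ⟨_, rfl⟩
  obtain ⟨s2, hs2⟩ : ∃ s2, s2 = ‖(1 : Matrix (Fin K × Fin d) (Fin K × Fin d) ℂ)‖ := ⟨_, rfl⟩
  obtain ⟨ε, hε⟩ : ∃ ε, ε = ‖Emb d K‖ := ⟨_, rfl⟩
  obtain ⟨τ, hτ⟩ : ∃ τ, τ = ‖TT0 d K‖ := ⟨_, rfl⟩
  have hβ0 : 0 ≤ β := hβ ▸ norm_nonneg _
  have hs10 : 0 ≤ s1 := hs1 ▸ norm_nonneg _
  have hs20 : 0 ≤ s2 := hs2 ▸ norm_nonneg _
  have hε0 : 0 ≤ ε := hε ▸ norm_nonneg _
  have hτ0 : 0 ≤ τ := hτ ▸ norm_nonneg _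
  obtain ⟨MT, hMT⟩ : ∃ MT, MT = τ + ε * ((s2 + 1) * β) := ⟨_, rfl⟩
  have hMT0 : 0 ≤ MT := by rw [hMT]; positivity
  refine ⟨(ε * ε + (MT * (2 * s1 / c) * (ε * β) + (MT * (β * β * (2 * s1 / c) / c) +
    ε * β * (s1 / c)) * MT)) + 1, by positivity, min 1 (c / (2 * (β * β + 1))), by positivity, ?_⟩
  intro z m R hroot hm hcz hW hx
  have hx1 := le_trans hx (min_le_left _ _)
  have hx2 : β * β * ‖R - m • (1 : Matrix (Fin K × Fin d) (Fin K × Fin d) ℂ)‖ ≤ c / 2 := by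
    have h1 := le_trans hx (min_le_right _ _)
    rw [le_div_iff₀ (by positivity)] at h1
    have := norm_nonneg (R - m • (1 : Matrix (Fin K × Fin d) (Fin K × Fin d) ℂ))
    nlinarith
  have hne : z + d * m ≠ 0 := by
    intro h
    rw [h, norm_zero] at hcz
    linarith
  rw [hβ] at hx2
  obtain ⟨hW1, hW2, hW3⟩ := W_lip hc hcz hW hx2
  have hT := TT_lip R (m • (1 : Matrix (Fin K × Fin d) (Fin K × Fin d) ℂ))
  have hLl := LLm_lip R (m • (1 : Matrix (Fin K × Fin d) (Fin K × Fin d) ℂ))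
  have hm1 := norm_smul_one_le (d := d) (K := K) hm
  have hRn : ‖R‖ ≤ s2 + 1 := by
    have e : R = m • (1 : Matrix (Fin K × Fin d) (Fin K × Fin d) ℂ) +
      (R - m • (1 : Matrix (Fin K × Fin d) (Fin K × Fin d) ℂ)) := by rw [add_sub_cancel]
    calc ‖R‖ = ‖m • (1 : Matrix (Fin K × Fin d) (Fin K × Fin d) ℂ) +
      (R - m • (1 : Matrix (Fin K × Fin d) (Fin K × Fin d) ℂ))‖ := by rw [← e]
      _ ≤ _ := norm_add_le _ _
      _ ≤ s2 + 1 := by rw [hs2]; exact add_le_add hm1 hx1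
  have hTn : ∀ R' : Matrix (Fin K × Fin d) (Fin K × Fin d) ℂ, ‖R'‖ ≤ s2 + 1 → ‖TT R'‖ ≤ MT := by
    intro R' hR'
    refine le_trans (TT_norm R') ?_
    rw [hMT, ← hβ, ← hε, ← hτ]
    have h3 : ‖R'‖ * β ≤ (s2 + 1) * β := mul_le_mul_of_nonneg_right hR' hβ0
    have h4 : ε * (‖R'‖ * β) ≤ ε * ((s2 + 1) * β) := mul_le_mul_of_nonneg_left h3 hε0
    linarith
  have hT1 := hTn R hRn
  have hT2 := hTn (m • (1 : Matrix (Fin K × Fin d) (Fin K × Fin d) ℂ))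
    (by rw [← hs2] at hm1; linarith)
  rw [← hβ, ← hε] at hT
  rw [← hε] at hLl
  rw [← hs1] at hW1
  rw [← hβ, ← hs1] at hW2
  rw [← hs1] at hW3
  have key := Q_lip_core hLl hT hW2 hT1 hT2 hW1 hW3
  rw [← QofR_scalar hroot hne]
  refine le_trans key ?_
  refine mul_le_mul_of_nonneg_right ?_ (norm_nonneg _)
  linarith

/-- Abstract core of the reverse bound. -/
theorem rev_core {a b e : Type} [Fintype a] [Fintype b] [Fintype e] [DecidableEq b]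
    {G G0 : Matrix a a ℂ} {W W0 : Matrix b b ℂ} {f : b → a} {g : e → a}
    (hf : Function.Injective f) (hg : Function.Injective g)
    (h1 : W * G.submatrix f f = 1) (h2 : G0.submatrix f f * W0 = 1) {w M : ℝ}
    (hw : ‖W0‖ ≤ w) (hy : ‖G - G0‖ * w ≤ 1 / 2) (hG : ‖G‖ ≤ M) (hG0 : ‖G0‖ ≤ M) :
    ‖(G.submatrix g g - G.submatrix g f * W * G.submatrix f g) -
      (G0.submatrix g g - G0.submatrix g f * W0 * G0.submatrix f g)‖ ≤
      (1 + (M * (2 * w) * 1 + (M * (2 * w ^ 2) + 1 * w) * M)) * ‖G - G0‖ := by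
  have hsub : ∀ {c c' : Type} [Fintype c] [Fintype c'] (p : c → a) (p' : c' → a),
      Function.Injective p → Function.Injective p' →
      ‖G.submatrix p p' - G0.submatrix p p'‖ ≤ 1 * ‖G - G0‖ := by
    intro c c' _ _ p p' hp hp'
    rw [one_mul]
    exact fro_submatrix (G - G0) hp hp'
  have hw0 : 0 ≤ w := le_trans (norm_nonneg _) hw
  have hM0 : 0 ≤ M := le_trans (norm_nonneg _) hG
  have hWW : W - W0 = W * ((G0.submatrix f f - G.submatrix f f) * W0) := by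
    rw [Matrix.sub_mul, Matrix.mul_sub, h2, Matrix.mul_one, ← Matrix.mul_assoc, h1,
      Matrix.one_mul]
  have hWW1 : ‖W - W0‖ ≤ ‖W‖ * (‖G - G0‖ * w) := by
    rw [hWW]
    refine le_trans (Matrix.frobenius_norm_mul _ _) (mul_le_mul_of_nonneg_left ?_ (norm_nonneg _))
    refine le_trans (Matrix.frobenius_norm_mul _ _) ?_
    refine mul_le_mul ?_ hw (norm_nonneg _) (norm_nonneg _)
    rw [← norm_neg, neg_sub]
    have := hsub f f hf hf
    rwa [one_mul] at this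
  have hWn : ‖W‖ ≤ 2 * w := by
    have h3 : ‖W‖ ≤ ‖W0‖ + ‖W - W0‖ := by
      calc ‖W‖ = ‖W0 + (W - W0)‖ := by rw [add_sub_cancel]
        _ ≤ _ := norm_add_le _ _
    have h4 : ‖W‖ * (‖G - G0‖ * w) ≤ ‖W‖ * (1 / 2) :=
      mul_le_mul_of_nonneg_left hy (norm_nonneg _)
    linarith
  have hWd : ‖W - W0‖ ≤ 2 * w ^ 2 * ‖G - G0‖ := by
    refine le_trans hWW1 ?_
    calc ‖W‖ * (‖G - G0‖ * w) ≤ 2 * w * (‖G - G0‖ * w) :=
          mul_le_mul_of_nonneg_right hWn (mul_nonneg (norm_nonneg _) hw0)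
      _ = _ := by ring
  have hn : ∀ {c c' : Type} [Fintype c] [Fintype c'] (p : c → a) (p' : c' → a),
      Function.Injective p → Function.Injective p' → ‖G.submatrix p p'‖ ≤ M := by
    intro c c' _ _ p p' hp hp'
    exact le_trans (fro_submatrix G hp hp') hG
  have hn0 : ∀ {c c' : Type} [Fintype c] [Fintype c'] (p : c → a) (p' : c' → a),
      Function.Injective p → Function.Injective p' → ‖G0.submatrix p p'‖ ≤ M := by
    intro c c' _ _ p p' hp hp'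
    exact le_trans (fro_submatrix G0 hp hp') hG0
  have p1 := lip_mul (hsub g f hg hf) hWd (hn g f hg hf) hw
  have hM1 : ‖G.submatrix g f * W‖ ≤ M * (2 * w) := by
    refine le_trans (Matrix.frobenius_norm_mul _ _) ?_
    exact mul_le_mul (hn g f hg hf) hWn (norm_nonneg _) hM0
  have p2 := lip_mul p1 (hsub f g hf hg) hM1 (hn0 f g hf hg)
  have h : (G.submatrix g g - G.submatrix g f * W * G.submatrix f g) -
      (G0.submatrix g g - G0.submatrix g f * W0 * G0.submatrix f g) =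
      (G.submatrix g g - G0.submatrix g g) - (G.submatrix g f * W * G.submatrix f g -
        G0.submatrix g f * W0 * G0.submatrix f g) := by abel
  rw [h]
  refine le_trans (norm_sub_le _ _) (le_trans (add_le_add (hsub g g hg hg) p2) (le_of_eq ?_))
  ring

theorem Kz_norm {c : ℝ} (hc : 0 < c) {z m : ℂ} (hm : ‖m‖ ≤ 1) (hcz : c ≤ ‖z + d * m‖) :
    ‖Kz d z m K‖ ≤ Real.sqrt (Fintype.card (Fin K × Option (Fin d)) *
      Fintype.card (Fin K × Option (Fin d))) * (1 / c) := by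
  refine fro_le_of_entry _ (by positivity) fun x y => ?_
  unfold Kz
  split_ifs
  · rw [norm_mul, norm_div, norm_neg, norm_one, norm_pow, norm_neg]
    calc 1 / ‖z + d * m‖ * ‖m‖ ^ starDist x.2 y.2 ≤ 1 / c * 1 :=
          mul_le_mul (one_div_le_one_div_of_le hc hcz) (pow_le_one₀ (norm_nonneg _) hm)
            (pow_nonneg (norm_nonneg _) _) (by positivity)
      _ = 1 / c := mul_one _
  · rw [norm_zero]
    positivity

/-- From the star to the leads. -/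
theorem rev_lip (d K : ℕ) {c Z : ℝ} (hc : 0 < c) : ∃ C > 0, ∃ δ > 0, ∀ (z m : ℂ)
    (R : Matrix (Fin K × Fin d) (Fin K × Fin d) ℂ), ((d : ℂ) - 1) * m ^ 2 + z * m + 1 = 0 →
    ‖m‖ ≤ 1 → c ≤ ‖z + d * m‖ → ‖z + d * m‖ ≤ Z → IsUnit (WWm R z).det →
    ‖QofR R z - Kz d z m K‖ ≤ δ →
    ‖R - m • (1 : Matrix (Fin K × Fin d) (Fin K × Fin d) ℂ)‖ ≤ C * ‖QofR R z - Kz d z m K‖ := by
  obtain ⟨s1, hs1⟩ : ∃ s1, s1 = ‖(1 : Matrix (Fin K) (Fin K) ℂ)‖ := ⟨_, rfl⟩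
  have hs10 : 0 ≤ s1 := hs1 ▸ norm_nonneg _
  obtain ⟨k0, hk0⟩ : ∃ k0 : ℝ, k0 = Real.sqrt (Fintype.card (Fin K × Option (Fin d)) *
      Fintype.card (Fin K × Option (Fin d))) * (1 / c) := ⟨_, rfl⟩
  have hk00 : 0 ≤ k0 := by rw [hk0]; positivity
  obtain ⟨w, hw⟩ : ∃ w : ℝ, w = |Z| * s1 := ⟨_, rfl⟩
  have hw0 : 0 ≤ w := by rw [hw]; positivity
  refine ⟨1 + ((k0 + 1) * (2 * w) * 1 + ((k0 + 1) * (2 * w ^ 2) + 1 * w) * (k0 + 1)),
    by positivity, min 1 (1 / (2 * (w + 1))), by positivity, ?_⟩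
  intro z m R hroot hm hcz hZ hW hy
  have hne : z + d * m ≠ 0 := by
    intro h
    rw [h, norm_zero] at hcz
    linarith
  have hW0u := WWm_unit_scalar (d := d) (K := K) hne
  have hy1 := le_trans hy (min_le_left _ _)
  have hy2 := le_trans hy (min_le_right _ _)
  have hQ0 := QofR_scalar (K := K) hroot hne
  have h1 : WWm R z * (QofR R z).submatrix (iD d K) (iD d K) = 1 := by
    rw [Q_DD, Matrix.mul_nonsing_inv _ hW]
  have h2 : (QofR (m • (1 : Matrix (Fin K × Fin d) (Fin K × Fin d) ℂ)) z).submatrix (iD d K)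
      (iD d K) * WWm (m • (1 : Matrix (Fin K × Fin d) (Fin K × Fin d) ℂ)) z = 1 := by
    rw [Q_DD, Matrix.nonsing_inv_mul _ hW0u]
  have hwn : ‖WWm (m • (1 : Matrix (Fin K × Fin d) (Fin K × Fin d) ℂ)) z‖ ≤ w := by
    rw [WWm_scalar, norm_smul, norm_neg, hw, hs1]
    exact mul_le_mul_of_nonneg_right (le_trans hZ (le_abs_self _)) (norm_nonneg _)
  have hKn := Kz_norm (d := d) (K := K) hc hm hcz
  rw [← hk0] at hKn
  rw [← hQ0] at hKn hy1 hy2 ⊢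
  have hyw : ‖QofR R z - QofR (m • (1 : Matrix (Fin K × Fin d) (Fin K × Fin d) ℂ)) z‖ * w ≤
      1 / 2 := by
    rw [le_div_iff₀ (by positivity)] at hy2
    have := norm_nonneg (QofR R z - QofR (m • (1 : Matrix (Fin K × Fin d) (Fin K × Fin d) ℂ)) z)
    nlinarith
  have hGn : ‖QofR R z‖ ≤ k0 + 1 := by
    have e : QofR R z = QofR (m • (1 : Matrix (Fin K × Fin d) (Fin K × Fin d) ℂ)) z +
      (QofR R z - QofR (m • (1 : Matrix (Fin K × Fin d) (Fin K × Fin d) ℂ)) z) := by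
      rw [add_sub_cancel]
    rw [e]
    exact le_trans (norm_add_le _ _) (add_le_add hKn hy1)
  have key := rev_core iD_inj iL_inj h1 h2 hwn hyw hGn (le_trans hKn (by linarith))
  rw [rev_id R z hW, rev_id _ z hW0u] at key
  exact key

/-- Truncated squares are comparable. -/
theorem trunc_le {x y C δ : ℝ} (hδ : 0 < δ) (hx : 0 ≤ x)
    (h : y ≤ δ → x ≤ C * y) : min 1 (x ^ 2) ≤ (C ^ 2 + 1 + 1 / δ ^ 2) * min 1 (y ^ 2) := by
  rcases le_or_gt y δ with hyd | hyd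
  · have h1 := h hyd
    have h2 : x ^ 2 ≤ C ^ 2 * y ^ 2 := by
      rw [← mul_pow]
      exact pow_le_pow_left₀ hx h1 2
    have h3 : min 1 (x ^ 2) ≤ (C ^ 2 + 1) * min 1 (y ^ 2) := by
      rcases le_total 1 (y ^ 2) with h4 | h4
      · rw [min_eq_left h4]
        have : min 1 (x ^ 2) ≤ 1 := min_le_left _ _
        nlinarith
      · rw [min_eq_right h4]
        have : min 1 (x ^ 2) ≤ x ^ 2 := min_le_right _ _
        nlinarith [sq_nonneg y]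
    have h5 : 0 ≤ 1 / δ ^ 2 * min 1 (y ^ 2) := by positivity
    linarith
  · have h1 : 1 ≤ 1 / δ ^ 2 * y ^ 2 := by
      rw [one_div, ← div_eq_inv_mul, le_div_iff₀ (by positivity), one_mul]
      exact pow_le_pow_left₀ hδ.le hyd.le 2
    have h2 : min 1 (x ^ 2) ≤ 1 := min_le_left _ _
    rcases le_total 1 (y ^ 2) with h4 | h4
    · rw [min_eq_left h4]
      have : 0 ≤ 1 / δ ^ 2 := by positivity
      nlinarith [sq_nonneg C]
    · rw [min_eq_right h4]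
      nlinarith [sq_nonneg C, sq_nonneg y, mul_nonneg (sq_nonneg C) (sq_nonneg y)]

/-- **D1**: comparability of the two truncated square distances. -/
theorem dev_comp (d K : ℕ) {c Z : ℝ} (hc : 0 < c) : ∃ C > 0, ∀ (n : ℕ)
    (ω : SimpleGraph (Fin n) × StarPos n d K), ω ∈ ZZs n d K → ∀ (z m : ℂ), z.im ≠ 0 →
    ((d : ℂ) - 1) * m ^ 2 + z * m + 1 = 0 → ‖m‖ ≤ 1 → c ≤ ‖z + d * m‖ → ‖z + d * m‖ ≤ Z →
    min 1 (‖starMat ω z - Kz d z m K‖ ^ 2) ≤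
      C * min 1 (‖leadMat ω z - m • (1 : Matrix (Fin K × Fin d) (Fin K × Fin d) ℂ)‖ ^ 2) ∧
    min 1 (‖leadMat ω z - m • (1 : Matrix (Fin K × Fin d) (Fin K × Fin d) ℂ)‖ ^ 2) ≤
      C * min 1 (‖starMat ω z - Kz d z m K‖ ^ 2) := by
  obtain ⟨C1, hC1, δ1, hδ1, H1⟩ := Q_lip d K hc
  obtain ⟨C2, hC2, δ2, hδ2, H2⟩ := rev_lip d K (Z := Z) hc
  refine ⟨(C1 ^ 2 + 1 + 1 / δ1 ^ 2) + (C2 ^ 2 + 1 + 1 / δ2 ^ 2), by positivity, ?_⟩
  intro n ω hω z m hz hroot hm hcz hZ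
  have hW := isUnit_WWm hω hz
  rw [starMat_eq' hω hz]
  constructor
  · have h := trunc_le hδ1 (norm_nonneg (QofR (leadMat ω z) z - Kz d z m K))
      (H1 z m _ hroot hm hcz hW)
    have h2 : 0 ≤ (C2 ^ 2 + 1 + 1 / δ2 ^ 2) *
      min 1 (‖leadMat ω z - m • (1 : Matrix (Fin K × Fin d) (Fin K × Fin d) ℂ)‖ ^ 2) := by
      positivity
    linarith
  · have h := trunc_le hδ2
      (norm_nonneg (leadMat ω z - m • (1 : Matrix (Fin K × Fin d) (Fin K × Fin d) ℂ))) (H2 z m _ hroot hm hcz hZ hW)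
    have h2 : 0 ≤ (C1 ^ 2 + 1 + 1 / δ1 ^ 2) *
      min 1 (‖QofR (leadMat ω z) z - Kz d z m K‖ ^ 2) := by
      positivity
    linarith

end H520

end

end Vale.Agent.P156
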