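import Vale.Agent.P156.FE.Spec
import Vale.Agent.P156.H520.FE6a
import Vale.Agent.P156.B.Samp
import Vale.Agent.P156.H490.Prob

/-! FE6, part b: `SpecComp`, `SpecWard`. -/

open MeasureTheory Filter Topology Matrix Finset
open Vale.Agent.P156.H490 (avg_sum avg_mul_left avg_congr)

namespace Vale.Agent.P156

noncomputable section

namespace H520

open FE
open scoped Matrix.Norms.Frobenius

theorem lead_sum {n d K : ℕ} (ω : SimpleGraph (Fin n) × StarPos n d K) (z m : ℂ) :
    (‖leadMat ω z - m • (1 : Matrix (Fin K × Fin d) (Fin K × Fin d) ℂ)‖ ^ 2 : ℝ) =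
      ∑ a, ∑ b, ‖leadMat ω z a b - (if a = b then m else 0)‖ ^ 2 := by
  rw [fro_sq]
  refine Finset.sum_congr rfl fun a _ => Finset.sum_congr rfl fun b _ => ?_
  rw [Matrix.sub_apply, Matrix.smul_apply, Matrix.one_apply, smul_eq_mul, mul_ite, mul_one,
    mul_zero]

theorem star_sum {n d K : ℕ} (ω : SimpleGraph (Fin n) × StarPos n d K) (z m : ℂ) :
    (‖starMat ω z - Kz d z m K‖ ^ 2 : ℝ) =
      ∑ x, ∑ y, ‖starMat ω z x y - Kz d z m K x y‖ ^ 2 := by
  rw [fro_sq]
  refine Finset.sum_congr rfl fun a _ => Finset.sum_congr rfl fun b _ => ?_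
  rw [Matrix.sub_apply]

theorem zz_im (E η : ℝ) : (zz E η).im = η := by simp [zz]

theorem norm_zz_le {a b E η : ℝ} (hE : E ∈ Set.Icc a b) (h0 : 0 < η) (h1 : η ≤ 1) :
    ‖zz E η‖ ≤ |a| + |b| + 1 := by
  unfold zz
  refine le_trans (norm_add_le _ _) ?_
  rw [norm_mul, Complex.norm_I, mul_one, Complex.norm_real, Complex.norm_real, Real.norm_eq_abs,
    Real.norm_eq_abs, abs_of_pos h0]
  have : |E| ≤ |a| + |b| := by
    rw [abs_le]
    have h2 := neg_abs_le a
    have h3 := le_abs_self b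
    have h4 := abs_nonneg a
    have h5 := abs_nonneg b
    exact ⟨by linarith [hE.1], by linarith [hE.2]⟩
  linarith

/-- **FE6**: comparability of `rho` and `dev`. -/
theorem specComp {d : ℕ} {a b : ℝ} (hd : 3 ≤ d) (hM : SpecM d a b) : SpecComp d a b := by
  intro K
  obtain ⟨c, hc, _, hm, _, _⟩ := hM
  obtain ⟨C, hC, H⟩ := dev_comp d K (Z := |a| + |b| + 1 + d) hc
  refine ⟨max 1 C, le_max_left _ _, ?_⟩
  intro n ω hω E hE η h0 h1
  obtain ⟨him, hm1, _, _, hroot⟩ := hm E hE η h0 h1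
  have hz : (zz E η).im ≠ 0 := by rw [zz_im]; exact h0.ne'
  have hd1 : (1 : ℝ) ≤ d := by exact_mod_cast (by omega : 1 ≤ d)
  have hlow : c ≤ ‖zz E η + d * mm d (zz E η)‖ := by
    refine le_trans ?_ (Complex.abs_im_le_norm _)
    have h2 : (zz E η + d * mm d (zz E η)).im = η + d * (mm d (zz E η)).im := by
      rw [Complex.add_im, zz_im, Complex.mul_im]
      simp
    rw [h2]
    refine le_trans ?_ (le_abs_self _)
    nlinarith
  have hup : ‖zz E η + d * mm d (zz E η)‖ ≤ |a| + |b| + 1 + d := by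
    refine le_trans (norm_add_le _ _) (add_le_add (norm_zz_le hE h0 h1) ?_)
    rw [norm_mul, Complex.norm_natCast]
    calc (d : ℝ) * ‖mm d (zz E η)‖ ≤ d * 1 := mul_le_mul_of_nonneg_left hm1 (by positivity)
      _ = d := mul_one _
  obtain ⟨h2, h3⟩ := H n ω hω (zz E η) (mm d (zz E η)) hz hroot hm1 hlow hup
  rw [lead_sum, star_sum] at h2 h3
  unfold FE.rho FE.dev
  constructor
  · refine le_trans h3 (mul_le_mul_of_nonneg_right (le_max_right _ _) ?_)
    exact le_min zero_le_one (Finset.sum_nonneg fun _ _ => Finset.sum_nonneg fun _ _ => sq_nonneg _)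
  · refine le_trans h2 (mul_le_mul_of_nonneg_right (le_max_right _ _) ?_)
    exact le_min zero_le_one (Finset.sum_nonneg fun _ _ => Finset.sum_nonneg fun _ _ => sq_nonneg _)

/-- **FE6**: Ward identity for a random star. -/
theorem specWard (d : ℕ) : SpecWard d := by
  intro n G hG hn E η hη s
  have hG' := B.mem_regularGraphs.1 hG
  have hnR : (n : ℝ) ≠ 0 := by
    have : 0 < n := hn
    positivity
  unfold Gam
  rw [avg_sum, Finset.mul_sum]
  refine Finset.sum_congr rfl fun x _ => ?_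
  rw [avg_sum]
  have h1 : ∀ y : Option (Fin d), avg (B.stars d G)
      (fun t => ‖resD (adj G) ∅ (zz E η) (B.pos s x) (B.pos t y)‖ ^ 2) =
      (resD (adj G) ∅ (zz E η) (B.pos s x) (B.pos s x)).im / η / n := by
    intro y
    rw [B.avg_stars_pos hG' y (fun v => ‖resD (adj G) ∅ (zz E η) (B.pos s x) v‖ ^ 2)]
    congr 1
    exact H801.ward_resD (adj_isHermitian G) E hη (by simp)
  rw [Finset.sum_congr rfl (fun y _ => h1 y), Finset.sum_const, Finset.card_univ,
    Fintype.card_option, Fintype.card_fin, nsmul_eq_mul]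
  push_cast
  field_simp

end H520

end

end Vale.Agent.P156
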