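import Mathlib
import Vale.Agent.P156.H520.Final

/-! From quantitative forms of C3 and C4 to the soft forms. -/

open MeasureTheory Filter Topology Matrix Finset

namespace Vale.Agent.P156

noncomputable section

namespace H520

/-- The elementary limit: a bound `C ((n η)^{-1/4} + 1/n)` at `η = L/n` is small. -/
theorem soft_of_quant {d : ℕ} {Φ : ℕ → ℝ → ℝ} {C : ℝ}
    (h : ∀ n : ℕ, d < n → Even (n * d) → ∀ η : ℝ, 1 / (n : ℝ) ≤ η → η ≤ 1 →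
      Φ n η ≤ C * ((n * η) ^ (-(1 / 4) : ℝ) + 1 / n)) (ε : ℝ) (hε : 0 < ε) :
    ∃ L₀ : ℝ, ∀ L ≥ L₀, ∀ᶠ n in admissible d, Φ n (L / n) ≤ ε := by
  have h1 : Tendsto (fun L : ℝ => |C| * L ^ (-(1 / 4) : ℝ)) atTop (𝓝 0) := by
    have := (tendsto_rpow_neg_atTop (show (0 : ℝ) < 1 / 4 by norm_num)).const_mul |C|
    rwa [mul_zero] at this
  have h2 := h1.eventually (eventually_le_nhds (show (0 : ℝ) < ε / 2 by positivity))
  obtain ⟨L₁, hL₁⟩ := Filter.eventually_atTop.1 h2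
  refine ⟨max 1 L₁, fun L hL => ?_⟩
  have hL1 : 1 ≤ L := le_trans (le_max_left _ _) hL
  have h3 : Tendsto (fun n : ℕ => |C| / (n : ℝ)) (admissible d) (𝓝 0) :=
    (tendsto_const_div_atTop_nhds_zero_nat _).mono_left inf_le_left
  have h4 := h3.eventually (eventually_le_nhds (show (0 : ℝ) < ε / 2 by positivity))
  filter_upwards [h4, adm_pos, adm_mem, adm_ge ⌈L⌉₊] with n hn hn0 hadm hnL
  have hnR : (0 : ℝ) < n := by exact_mod_cast hn0
  have hnL' : L ≤ n := le_trans (Nat.le_ceil L) (by exact_mod_cast hnL)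
  have h5 := h n hadm.1 hadm.2 (L / n) (by gcongr) (by rw [div_le_one hnR]; exact hnL')
  have h6 : (n : ℝ) * (L / n) = L := by field_simp
  rw [h6] at h5
  have h7 : 0 ≤ L ^ (-(1 / 4) : ℝ) + 1 / (n : ℝ) := by positivity
  calc Φ n (L / n) ≤ C * (L ^ (-(1 / 4) : ℝ) + 1 / n) := h5
    _ ≤ |C| * (L ^ (-(1 / 4) : ℝ) + 1 / n) := mul_le_mul_of_nonneg_right (le_abs_self C) h7
    _ = |C| * L ^ (-(1 / 4) : ℝ) + |C| / n := by ring
    _ ≤ ε / 2 + ε / 2 := add_le_add (hL₁ L (le_trans (le_max_right _ _) hL)) hn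
    _ = ε := by ring

/-- C3, quantitative form. -/
def QOff (d : ℕ) : Prop :=
  ∀ a b : ℝ, BulkI d a b → ∀ (K : ℕ) (x y : Fin K × Fin d), x ≠ y → ∃ C : ℝ,
    ∀ n : ℕ, d < n → Even (n * d) → ∀ η : ℝ, 1 / (n : ℝ) ≤ η → η ≤ 1 →
      ∫ E in a..b, avg (WW n d K)
        (fun ω => min 1 ‖leadMat ω ((E : ℂ) + (η : ℂ) * Complex.I) x y‖) ≤
          C * ((n * η) ^ (-(1 / 4) : ℝ) + 1 / n)

/-- C4, quantitative form. -/
def QStab (d : ℕ) : Prop :=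
  ∀ a b : ℝ, BulkI d a b → ∀ (K : ℕ) (x : Fin K × Fin d), ∃ C : ℝ,
    ∀ n : ℕ, d < n → Even (n * d) → ∀ η : ℝ, 1 / (n : ℝ) ≤ η → η ≤ 1 →
      ∫ E in a..b, avg (WW n d K)
        (fun ω => min 1 ‖leadMat ω ((E : ℂ) + (η : ℂ) * Complex.I) x x -
          hc ω.1 ((E : ℂ) + (η : ℂ) * Complex.I) (ω.2.1 x.1, ω.2.2 x.1 x.2)‖) ≤
          C * ((n * η) ^ (-(1 / 4) : ℝ) + 1 / n)

theorem offLL_of_quant {d : ℕ} (h : QOff d) : OffLL d := by
  intro a b hab K x y hxy ε hε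
  obtain ⟨C, hC⟩ := h a b hab K x y hxy
  exact soft_of_quant (Φ := fun n η => ∫ E in a..b, avg (WW n d K)
        (fun ω => min 1 ‖leadMat ω ((E : ℂ) + (η : ℂ) * Complex.I) x y‖)) hC ε hε

theorem stabLL_of_quant {d : ℕ} (h : QStab d) : StabLL d := by
  intro a b hab K x ε hε
  obtain ⟨C, hC⟩ := h a b hab K x
  exact soft_of_quant (Φ := fun n η => ∫ E in a..b, avg (WW n d K)
        (fun ω => min 1 ‖leadMat ω ((E : ℂ) + (η : ℂ) * Complex.I) x x -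
          hc ω.1 ((E : ℂ) + (η : ℂ) * Complex.I) (ω.2.1 x.1, ω.2.2 x.1 x.2)‖)) hC ε hε

end H520

end

end Vale.Agent.P156
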