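import Vale.Agent.P156.B.C5
import Vale.Agent.P156.H520.Quant
import Vale.Agent.P156.H943.LL

/-! The soft local law, unconditional. -/

open MeasureTheory Filter Topology Matrix Finset
open Vale.Agent.P156.H943 (C5LL C5Fix outLL_of outFix_of)

namespace Vale.Agent.P156

noncomputable section

namespace H520

theorem soft_of_rpow {d : ℕ} {Φ : ℕ → ℝ → ℝ} {C κ : ℝ} (hκ : 0 < κ)
    (h : ∀ n : ℕ, 0 < n → ∀ η : ℝ, 1 / (n : ℝ) ≤ η → η ≤ 1 →
      Φ n η ≤ C * ((n : ℝ) * η) ^ (-κ)) (ε : ℝ) (hε : 0 < ε) :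
    ∃ L₀ : ℝ, ∀ L ≥ L₀, ∀ᶠ n in admissible d, Φ n (L / n) ≤ ε := by
  have h1 : Tendsto (fun L : ℝ => |C| * L ^ (-κ)) atTop (𝓝 0) := by
    have := (tendsto_rpow_neg_atTop hκ).const_mul |C|
    rwa [mul_zero] at this
  have h2 := h1.eventually (eventually_le_nhds hε)
  obtain ⟨L₁, hL₁⟩ := Filter.eventually_atTop.1 h2
  refine ⟨max 1 L₁, fun L hL => ?_⟩
  have hL1 : 1 ≤ L := le_trans (le_max_left _ _) hL
  filter_upwards [adm_pos, adm_ge ⌈L⌉₊] with n hn0 hnL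
  have hnR : (0 : ℝ) < n := by exact_mod_cast hn0
  have hnL' : L ≤ n := le_trans (Nat.le_ceil L) (by exact_mod_cast hnL)
  have h5 := h n hn0 (L / n) (by gcongr) (by rw [div_le_one hnR]; exact hnL')
  have h6 : (n : ℝ) * (L / n) = L := by field_simp
  rw [h6] at h5
  have h7 : 0 ≤ L ^ (-κ) := by positivity
  calc Φ n (L / n) ≤ C * L ^ (-κ) := h5
    _ ≤ |C| * L ^ (-κ) := mul_le_mul_of_nonneg_right (le_abs_self C) h7
    _ ≤ ε := hL₁ L (le_trans (le_max_right _ _) hL)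

theorem offLL (d : ℕ) : OffLL d := by
  intro a b hab K x y hxy ε hε
  obtain ⟨C, hC⟩ := B.C3 d K hab.1.le
  exact soft_of_rpow (Φ := fun n η => ∫ E in a..b, avg (WW n d K)
        (fun ω => min 1 ‖leadMat ω ((E : ℂ) + (η : ℂ) * Complex.I) x y‖)) (by norm_num)
    (fun n hn η h1 h2 => hC n hn η h1 h2 x y hxy) ε hε

theorem stabLL (d : ℕ) : StabLL d := by
  intro a b hab K x ε hε
  obtain ⟨C, hC⟩ := B.C4 d K hab.1.le
  exact soft_of_rpow (Φ := fun n η => ∫ E in a..b, avg (WW n d K)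
        (fun ω => min 1 ‖leadMat ω ((E : ℂ) + (η : ℂ) * Complex.I) x x -
          hc ω.1 ((E : ℂ) + (η : ℂ) * Complex.I) (ω.2.1 x.1, ω.2.2 x.1 x.2)‖)) (by norm_num)
    (fun n hn η h1 h2 => hC n hn η h1 h2 x.1 x.2) ε hε

theorem adm_of_atTop {d : ℕ} {P : ℕ → Prop} (h : ∀ᶠ n in atTop, P n) :
    ∀ᶠ n in admissible d, P n := h.filter_mono inf_le_left

theorem offFix (d : ℕ) : OffFix d := by
  intro z hz K x y hxy ε hε
  filter_upwards [adm_of_atTop (B.C3fix d K hz hε)] with n hn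
  exact hn x y hxy

theorem stabFix (d : ℕ) : StabFix d := by
  intro z hz K x ε hε
  filter_upwards [adm_of_atTop (B.C4fix d K hz hε)] with n hn
  exact hn x.1 x.2

theorem marg (d : ℕ) : Marg d := by
  intro n hn _ K j k Φ
  exact B.avg_WW_edge (by omega) j k Φ

theorem c5LL {d : ℕ} (hd : 3 ≤ d) : C5LL d := by
  intro a b hab
  obtain ⟨C, hC⟩ := B.C5 (by omega : 1 ≤ d) hab.1.le
  refine ⟨1 / 8, by norm_num, |C|, abs_nonneg C, ?_⟩
  intro n hn _ η h1 h2 F hF _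
  have hn0 : 0 < n := by omega
  have hnR : (0 : ℝ) < n := by exact_mod_cast hn0
  have hη : 0 < η := lt_of_lt_of_le (by positivity) h1
  refine le_trans (hC n hn0 η h1 h2 F hF) ?_
  have h7 : 0 ≤ ((n : ℝ) * η) ^ (-(1 / 8 : ℝ)) := by positivity
  have h8 : 0 ≤ 1 / (n : ℝ) := by positivity
  calc C * ((n : ℝ) * η) ^ (-(1 / 8 : ℝ)) ≤ |C| * ((n : ℝ) * η) ^ (-(1 / 8 : ℝ)) :=
        mul_le_mul_of_nonneg_right (le_abs_self C) h7
    _ ≤ |C| * (((n : ℝ) * η) ^ (-(1 / 8 : ℝ)) + 1 / n) :=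
        mul_le_mul_of_nonneg_left (by linarith) (abs_nonneg C)

theorem c5Fix {d : ℕ} (hd : 3 ≤ d) : C5Fix d := by
  intro z hz ε hε
  exact adm_of_atTop (B.C5fix (by omega : 1 ≤ d) hz hε)

/-- **Soft local law** on `K` stars, averaged over the energy. -/
theorem specLL {d : ℕ} (hd : 3 ≤ d) : SpecLL d :=
  specLL_of' hd (B.specZW d) (offLL d) (stabLL d) (outLL_of hd (c5LL hd)) (marg d)

/-- **Local law at a fixed spectral parameter** on `K` stars. -/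
theorem specFix {d : ℕ} (hd : 3 ≤ d) : SpecFix d :=
  specFix_of hd (B.specZW d) (offFix d) (stabFix d) (outFix_of hd (c5Fix hd) _) (marg d)

end H520

end

end Vale.Agent.P156
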